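import Vale.Agent.P113.Program

/-!
P113: codes of stacks of digits and the cylinders of finite words.
-/

namespace Vale.Agent.P113.Disc

/-- The code of a stack (top first): `∑ 2 dᵢ / B^(i+1)`. -/
noncomputable def stackCode (B : ℕ) : List ℕ → ℝ
  | [] => 0
  | d :: w => (2 * (d : ℝ) + stackCode B w) / B

/-- The numerator of the code of a word. -/
def numer (B : ℕ) (w : List ℕ) : ℕ := w.foldl (fun acc d => acc * B + 2 * d) 0

theorem numer_foldl (B : ℕ) (w : List ℕ) : ∀ a : ℕ,
    w.foldl (fun acc d => acc * B + 2 * d) a = a * B ^ w.length + numer B w := by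
  induction w with
  | nil => intro a; simp [numer]
  | cons d w ih =>
    intro a
    simp only [numer, List.foldl_cons, List.length_cons]
    rw [ih, ih (0 * B + 2 * d)]
    ring

theorem numer_cons (B d : ℕ) (w : List ℕ) :
    numer B (d :: w) = 2 * d * B ^ w.length + numer B w := by
  simp only [numer, List.foldl_cons]
  rw [numer_foldl]
  simp [numer]

/-- Left end of the cylinder of `w`, in units `B^(-e)`. -/
def lo (B e : ℕ) (w : List ℕ) : ℕ := numer B w * B ^ (e - w.length)

/-- Width of the cylinder of `w`, in units `B^(-e)`. -/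
def width (B e : ℕ) (w : List ℕ) : ℕ := B ^ (e - w.length)

theorem lo_nil (B e : ℕ) : lo B e [] = 0 := by simp [lo, numer]

theorem width_nil (B e : ℕ) : width B e [] = B ^ e := by simp [width]

theorem lo_cons (B e d : ℕ) (w : List ℕ) (h : w.length ≤ e) :
    lo B (e + 1) (d :: w) = 2 * d * B ^ e + lo B e w := by
  simp only [lo, numer_cons, List.length_cons, Nat.add_sub_add_right]
  rw [add_mul, mul_assoc, ← pow_add, Nat.add_sub_cancel' h]

theorem width_cons (B e d : ℕ) (w : List ℕ) : width B (e + 1) (d :: w) = width B e w := by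
  simp [width, Nat.add_sub_add_right]

theorem cyl_le {D : ℕ} (hD : 1 ≤ D) : ∀ (w : List ℕ) (e : ℕ), w.length ≤ e → (∀ d ∈ w, d < D) →
    lo (2 * D) e w + width (2 * D) e w ≤ (2 * D) ^ e := by
  intro w
  induction w with
  | nil => intro e _ _; simp [lo_nil, width_nil]
  | cons d w ih =>
    intro e he hd
    obtain ⟨e, rfl⟩ : ∃ k, e = k + 1 := ⟨e - 1, by simp at he; omega⟩
    simp only [List.length_cons, Nat.add_le_add_iff_right] at he
    rw [lo_cons _ _ _ _ he, width_cons]
    have h1 := ih e he (fun x hx => hd x (List.mem_cons_of_mem _ hx))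
    have h2 : d < D := hd d List.mem_cons_self
    have h3 : 2 * d * (2 * D) ^ e + (2 * D) ^ e ≤ (2 * D) ^ (e + 1) := by
      rw [pow_succ']
      calc 2 * d * (2 * D) ^ e + (2 * D) ^ e = (2 * d + 1) * (2 * D) ^ e := by ring
        _ ≤ 2 * D * (2 * D) ^ e := Nat.mul_le_mul_right _ (by omega)
    omega

/-- Two words differ at some common position. -/
def Incomp : List ℕ → List ℕ → Prop
  | [], _ => False
  | _ :: _, [] => False
  | a :: p, b :: q => a ≠ b ∨ Incomp p q

theorem Incomp.symm : ∀ {p q : List ℕ}, Incomp p q → Incomp q p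
  | [], _, h => h.elim
  | _ :: _, [], h => h.elim
  | _ :: _, _ :: _, h => h.imp (fun h => h.symm) Incomp.symm

theorem incomp_apart {D : ℕ} (hD : 2 ≤ D) : ∀ (p q : List ℕ) (e : ℕ),
    p.length < e → q.length < e → (∀ d ∈ p, d < D) → (∀ d ∈ q, d < D) → Incomp p q →
    lo (2 * D) e p + width (2 * D) e p + 2 ≤ lo (2 * D) e q ∨
      lo (2 * D) e q + width (2 * D) e q + 2 ≤ lo (2 * D) e p := by
  intro p
  induction p with
  | nil => intro q e _ _ _ _ h; exact absurd h (by simp [Incomp])
  | cons a p ih =>
    intro q e hp hq hpd hqd h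
    cases q with
    | nil => exact absurd h (by simp [Incomp])
    | cons b q =>
      obtain ⟨e, rfl⟩ : ∃ k, e = k + 1 := ⟨e - 1, by simp at hp; omega⟩
      simp only [List.length_cons, Nat.add_lt_add_iff_right] at hp hq
      rw [lo_cons _ _ _ _ hp.le, lo_cons _ _ _ _ hq.le, width_cons, width_cons]
      have hp' := cyl_le (D := D) (by omega) p e hp.le
        (fun x hx => hpd x (List.mem_cons_of_mem _ hx))
      have hq' := cyl_le (D := D) (by omega) q e hq.le
        (fun x hx => hqd x (List.mem_cons_of_mem _ hx))
      have h2 : 2 ≤ (2 * D) ^ e := by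
        calc 2 ≤ (2 * D) ^ 1 := by simp; omega
          _ ≤ (2 * D) ^ e := Nat.pow_le_pow_right (by omega) (by omega)
      rcases lt_trichotomy a b with hab | hab | hab
      · left
        have : (2 * a + 2) * (2 * D) ^ e ≤ 2 * b * (2 * D) ^ e :=
          Nat.mul_le_mul_right _ (by omega)
        rw [add_mul] at this
        omega
      · subst hab
        simp only [Incomp, ne_eq, not_true_eq_false, false_or] at h
        rcases ih q e hp hq (fun x hx => hpd x (List.mem_cons_of_mem _ hx))
          (fun x hx => hqd x (List.mem_cons_of_mem _ hx)) h with h | h <;> omega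
      · right
        have : (2 * b + 2) * (2 * D) ^ e ≤ 2 * a * (2 * D) ^ e :=
          Nat.mul_le_mul_right _ (by omega)
        rw [add_mul] at this
        omega

theorem stackCode_mem {D : ℕ} (hD : 1 ≤ D) : ∀ (w : List ℕ), (∀ d ∈ w, d < D) →
    0 ≤ stackCode (2 * D) w ∧ stackCode (2 * D) w ≤ 1 := by
  intro w
  induction w with
  | nil => intro _; simp [stackCode]
  | cons d w ih =>
    intro hd
    obtain ⟨h0, h1⟩ := ih (fun x hx => hd x (List.mem_cons_of_mem _ hx))
    have h2 : (d : ℝ) + 1 ≤ D := by exact_mod_cast hd d List.mem_cons_self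
    have hB : (0 : ℝ) < ((2 * D : ℕ) : ℝ) := by exact_mod_cast (by omega : 0 < 2 * D)
    refine ⟨?_, ?_⟩
    · simp only [stackCode]; positivity
    · simp only [stackCode]
      rw [div_le_one hB]
      push_cast
      linarith

theorem stackCode_append (B e : ℕ) (hB : 0 < B) : ∀ (p t : List ℕ), p.length ≤ e →
    stackCode B (p ++ t) * (B : ℝ) ^ e = lo B e p + width B e p * stackCode B t := by
  intro p
  induction p generalizing e with
  | nil => intro t _; simp [lo_nil, width_nil]; ring
  | cons d p ih =>
    intro t he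
    obtain ⟨e, rfl⟩ : ∃ k, e = k + 1 := ⟨e - 1, by simp at he; omega⟩
    simp only [List.length_cons, Nat.add_le_add_iff_right] at he
    rw [lo_cons _ _ _ _ he, width_cons]
    have h := ih e t he
    have hB' : (B : ℝ) ≠ 0 := by exact_mod_cast hB.ne'
    simp only [List.cons_append, stackCode]
    push_cast
    rw [pow_succ]
    field_simp
    linear_combination h

/-- Reading the top of a stack, with implicit blanks below. -/
theorem stackCode_headD (B : ℕ) : ∀ w : List ℕ,
    stackCode B w = stackCode B ([w.headD 0] ++ w.tail)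
  | [] => by simp [stackCode]
  | _ :: _ => by simp

/-- Trailing blanks do not change the code of a word. -/
theorem stackCode_numer (B : ℕ) (hB : 0 < B) (w : List ℕ) :
    stackCode B w = numer B w / (B : ℝ) ^ w.length := by
  have h := stackCode_append B w.length hB w [] le_rfl
  simp [lo, stackCode] at h
  rw [eq_div_iff (by positivity)]
  exact h

end Vale.Agent.P113.Disc
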