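import Vale.Agent.P113.Disc.Geometry

/-!
P113: the start data and the primitive recursiveness of the discrete compiler.
-/

namespace Vale.Agent.P113.Disc

open Primrec

variable (M : Machine)

/-- Data of the plane point of the starting configuration. -/
def startData (w : List ℕ) : Start :=
  ((restX M (initCfg M w).1 * scale M, 0, unit M - 1),
    ((restY (initCfg M w).1 * base M ^ (initCfg M w).2.2.length
        + numer (base M) (initCfg M w).2.2) * scale M, 0,
      unit M * base M ^ (initCfg M w).2.2.length - 1))

theorem start_pt (w : List ℕ) :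
    (startData M w).pt = (posX M (initCfg M w), posY M (initCfg M w)) := by
  have hU := unit_pos M
  have hB : 0 < base M := base_pos M
  have hden : 1 ≤ unit M * base M ^ (initCfg M w).2.2.length :=
    Nat.mul_pos hU (pow_pos hB _)
  have hL : (initCfg M w).2.1 = [] := rfl
  refine Prod.ext ?_ ?_
  · simp only [Start.pt, startData, RatData.val, posX, lanePt, hL, stackCode, add_zero]
    rw [Nat.cast_sub (by omega)]
    push_cast
    ring
  · simp only [Start.pt, startData, RatData.val, posY, lanePt]
    rw [Nat.cast_sub hden, stackCode_numer _ hB]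
    have hU' : (unit M : ℝ) ≠ 0 := by exact_mod_cast hU.ne'
    have hB' : (base M : ℝ) ≠ 0 := by exact_mod_cast hB.ne'
    push_cast
    field_simp
    ring

section
variable {α : Type} [Primcodable α] {m : α → Machine} {f g : α → ℕ}

theorem pr_pow (hf : Primrec f) (hg : Primrec g) : Primrec fun a => f a ^ g a :=
  (Primrec₂.unpaired'.1 Nat.Primrec.pow).comp hf hg

theorem pr_numStates (hm : Primrec m) : Primrec fun a => (m a).numStates :=
  nat_add.comp (fst.comp hm) (const 1)

theorem pr_numSymbols (hm : Primrec m) : Primrec fun a => (m a).numSymbols :=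
  nat_add.comp (fst.comp (snd.comp hm)) (const 1)

theorem pr_start (hm : Primrec m) : Primrec fun a => (m a).start :=
  nat_mod.comp (fst.comp (snd.comp (snd.comp hm))) (pr_numStates hm)

theorem pr_isHalting (hm : Primrec m) (hf : Primrec f) :
    Primrec fun a => (m a).isHalting (f a) :=
  (list_getD false).comp (fst.comp (snd.comp (snd.comp (snd.comp hm)))) hf

theorem pr_entry (hm : Primrec m) (hf : Primrec f) (hg : Primrec g) :
    Primrec fun a => (m a).entry (f a) (g a) :=
  (list_getD (0, 0, 0)).comp (snd.comp (snd.comp (snd.comp (snd.comp hm))))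
    (nat_add.comp (nat_mul.comp hf (pr_numSymbols hm)) hg)

theorem pr_newState (hm : Primrec m) (hf : Primrec f) (hg : Primrec g) :
    Primrec fun a => (m a).newState (f a) (g a) :=
  nat_mod.comp (fst.comp (pr_entry hm hf hg)) (pr_numStates hm)

theorem pr_newSymbol (hm : Primrec m) (hf : Primrec f) (hg : Primrec g) :
    Primrec fun a => (m a).newSymbol (f a) (g a) :=
  nat_mod.comp (fst.comp (snd.comp (pr_entry hm hf hg))) (pr_numSymbols hm)

theorem pr_numKeys (hm : Primrec m) : Primrec fun a => numKeys (m a) :=
  nat_mul.comp (pr_numStates hm) (nat_add.comp (pr_numSymbols hm) (const 1))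

theorem pr_numDigits (hm : Primrec m) : Primrec fun a => numDigits (m a) :=
  nat_add.comp (nat_add.comp (pr_numSymbols hm) (const 2)) (pr_numKeys hm)

theorem pr_numLabels (hm : Primrec m) : Primrec fun a => numLabels (m a) :=
  nat_add.comp (nat_mul.comp (const 2) (pr_numStates hm)) (pr_numKeys hm)

theorem pr_bot (hm : Primrec m) : Primrec fun a => bot (m a) :=
  nat_add.comp (pr_numSymbols hm) (const 1)

theorem pr_topIndex (hm : Primrec m) (hf : Primrec f) :
    Primrec fun a => topIndex (m a) (f a) :=
  Primrec.ite (nat_lt.comp hf (pr_numSymbols hm)) hf (pr_numSymbols hm)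

theorem pr_key (hm : Primrec m) (hf : Primrec f) (hg : Primrec g) :
    Primrec fun a => key (m a) (f a) (g a) :=
  nat_add.comp (nat_mul.comp hf (nat_add.comp (pr_numSymbols hm) (const 1))) hg

theorem pr_keyState (hm : Primrec m) (hf : Primrec f) :
    Primrec fun a => keyState (m a) (f a) :=
  nat_div.comp hf (nat_add.comp (pr_numSymbols hm) (const 1))

theorem pr_keyLetter (hm : Primrec m) (hf : Primrec f) :
    Primrec fun a => keyLetter (m a) (f a) :=
  have ht : Primrec fun a => keyTop (m a) (f a) :=
    nat_mod.comp hf (nat_add.comp (pr_numSymbols hm) (const 1))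
  Primrec.ite (Primrec.eq.comp ht (pr_numSymbols hm)) (const 0) ht

theorem pr_valid {s : α → Src} (hm : Primrec m) (hs : Primrec s) :
    Primrec fun a => valid (m a) (s a) := by
  have hq := fst.comp hs
  have hl := fst.comp (snd.comp hs)
  have hr := snd.comp (snd.comp hs)
  have hlt := (nat_lt.comp hr (pr_numSymbols hm)).decide
  have hor := Primrec.or.comp hlt (Primrec.eq.comp hr (pr_bot hm)).decide
  have hle := (nat_le.comp hl (pr_numSymbols hm)).decide
  exact Primrec.ite (nat_lt.comp hq (pr_numStates hm))
    (Primrec.and.comp (Primrec.and.comp (Primrec.not.comp (pr_isHalting hm hq))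
      (nat_lt.comp hl (pr_numSymbols hm)).decide) hor)
    (Primrec.ite (nat_lt.comp hq (nat_add.comp (pr_numStates hm) (pr_numKeys hm)))
      (Primrec.and.comp hle hor)
      (Primrec.and.comp (Primrec.and.comp (nat_lt.comp hq (pr_numLabels hm)).decide hle) hlt))

theorem pr_target {s : α → Src} (hm : Primrec m) (hs : Primrec s) :
    Primrec fun a => target (m a) (s a) := by
  have hq := fst.comp hs
  have hl := fst.comp (snd.comp hs)
  have hr := snd.comp (snd.comp hs)
  have hn : Primrec fun _ : α => ([] : List ℕ) := const []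
  have hNS := pr_numStates hm
  have hA := pr_numSymbols hm
  have hNK := pr_numKeys hm
  have hb := pr_bot hm
  have hlR := nat_lt.comp hr hA
  have hlL := nat_lt.comp hl hA
  have hk := pr_key hm hq (pr_topIndex hm hr)
  have ha := pr_keyLetter hm hk
  have hsy := pr_newSymbol hm hq ha
  have hd := snd.comp (snd.comp (pr_entry hm hq ha))
  have hrest := Primrec.ite hlR hn (list_cons.comp hb hn)
  have hdst := nat_add.comp hNS hk
  have hready : Primrec fun a => readyTgt (m a) (s a).1 (s a).2.1 (s a).2.2 :=
    Primrec.ite (Primrec.eq.comp hd (const 0))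
      (Primrec.pair hdst (Primrec.pair (list_cons.comp hA hn)
        (list_append.comp (list_cons.comp hl (list_cons.comp hsy hn)) hrest)))
      (Primrec.ite (Primrec.eq.comp hd (const 1))
        (Primrec.pair hdst (Primrec.pair
          (list_cons.comp hA (list_cons.comp hsy (list_cons.comp hl hn))) hrest))
        (Primrec.pair hdst (Primrec.pair (list_cons.comp hA (list_cons.comp hl hn))
          (list_append.comp (list_cons.comp hsy hn) hrest))))
  have hc := nat_sub.comp hq hNS
  have hnew := pr_newState hm (pr_keyState hm hc) (pr_keyLetter hm hc)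
  have hhist := nat_add.comp (nat_add.comp hA (const 2)) hc
  have hcollect : Primrec fun a =>
      collectTgt (m a) ((s a).1 - (m a).numStates) (s a).2.1 (s a).2.2 :=
    Primrec.ite hlR
      (Primrec.pair (nat_add.comp hNS hc)
        (Primrec.pair (list_cons.comp hr (list_cons.comp hl hn)) hn))
      (Primrec.ite hlL
        (Primrec.pair (nat_add.comp (nat_add.comp hNS hNK) hnew)
          (Primrec.pair hn (list_cons.comp hl (list_cons.comp hb (list_cons.comp hhist hn)))))
        (Primrec.pair hnew (Primrec.pair hn (list_cons.comp hb (list_cons.comp hhist hn)))))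
  have hrq := nat_sub.comp hq (nat_add.comp hNS hNK)
  have hret : Primrec fun a =>
      retTgt (m a) ((s a).1 - ((m a).numStates + numKeys (m a))) (s a).2.1 (s a).2.2 :=
    Primrec.ite hlL
      (Primrec.pair (nat_add.comp (nat_add.comp hNS hNK) hrq)
        (Primrec.pair hn (list_cons.comp hl (list_cons.comp hr hn))))
      (Primrec.pair hrq (Primrec.pair hn (list_cons.comp hr hn)))
  exact Primrec.ite (nat_lt.comp hq hNS) hready
    (Primrec.ite (nat_lt.comp hq (nat_add.comp hNS hNK)) hcollect hret)

theorem pr_product {β γ : Type} [Primcodable β] [Primcodable γ] {u : α → List β} {v : α → List γ}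
    (hu : Primrec u) (hv : Primrec v) : Primrec fun a => u a ×ˢ v a := by
  refine (list_flatMap hu (list_map (hv.comp fst)
    ((Primrec.pair (snd.comp fst) snd).to₂)).to₂).of_eq fun a => ?_
  rfl

theorem pr_filterWith {β : Type} [Primcodable β] {l : α → List β} {p : α → β → Bool}
    (hl : Primrec l) (hp : Primrec₂ p) : Primrec fun a => (l a).filter (p a) := by
  refine (list_flatMap hl (Primrec.cond hp (list_cons.comp snd (const [])) (const [])).to₂).of_eq
    fun a => ?_
  induction l a with
  | nil => rfl
  | cons x xs ih => cases h : p a x <;> simp [List.flatMap_cons, h, ih]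

theorem pr_ruleSources (hm : Primrec m) : Primrec fun a => ruleSources (m a) := by
  have hD := list_range.comp (pr_numDigits hm)
  have hsrc : Primrec fun a => sources (m a) :=
    pr_product (list_range.comp (pr_numLabels hm)) (pr_product hD hD)
  exact pr_filterWith hsrc (pr_valid (hm.comp fst) snd).to₂

theorem pr_base (hm : Primrec m) : Primrec fun a => base (m a) :=
  nat_mul.comp (const 2) (pr_numDigits hm)

theorem pr_scale (hm : Primrec m) : Primrec fun a => scale (m a) :=
  pr_pow (pr_base hm) (const 4)

theorem pr_laneCap (hm : Primrec m) : Primrec fun a => laneCap (m a) :=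
  nat_mul.comp (const 2) (nat_add.comp (nat_mul.comp (pr_numLabels hm)
    (pr_pow (nat_add.comp (pr_numDigits hm) (const 2)) (const 3))) (const 1))

theorem pr_unit (hm : Primrec m) : Primrec fun a => unit (m a) :=
  nat_mul.comp (nat_mul.comp (const 20) (pr_laneCap hm)) (pr_scale hm)

theorem pr_restY (hf : Primrec f) : Primrec fun a => restY (f a) :=
  nat_mul.comp (const 2) hf

theorem pr_restX (hm : Primrec m) (hf : Primrec f) : Primrec fun a => restX (m a) (f a) := by
  have hh : Primrec fun a => haltLabel (m a) (f a) :=
    Primrec.and.comp (nat_lt.comp hf (pr_numStates hm)).decide (pr_isHalting hm hf)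
  refine (Primrec.cond hh (nat_add.comp (nat_mul.comp (const 13) (pr_laneCap hm)) (pr_restY hf))
    (pr_restY hf)).of_eq fun a => ?_
  cases h : haltLabel (m a) (f a) <;> simp [restX, restY, h]

theorem pr_shift1 (hm : Primrec m) (hf : Primrec f) : Primrec fun a => shift1 (m a) (f a) :=
  nat_mul.comp (nat_mul.comp (const 2) (pr_numLabels hm)) (nat_add.comp (const 1) hf)

theorem pr_shift2 {w : α → List ℕ} (hm : Primrec m) (hw : Primrec w) :
    Primrec fun a => shift2 (m a) (w a) := by
  refine nat_mul.comp (nat_mul.comp (const 2) (pr_numLabels hm)) (nat_add.comp (const 1) ?_)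
  refine (list_foldr hw (const 0) (nat_add.comp (nat_add.comp (fst.comp snd) (const 1))
    (nat_mul.comp (nat_add.comp (pr_numDigits (hm.comp fst)) (const 1))
      (snd.comp snd))).to₂).of_eq fun a => ?_
  rfl

theorem pr_numer {B : α → ℕ} {w : α → List ℕ} (hB : Primrec B) (hw : Primrec w) :
    Primrec fun a => numer (B a) (w a) :=
  list_foldl hw (const 0) (nat_add.comp (nat_mul.comp (fst.comp snd) (hB.comp fst))
    (nat_mul.comp (const 2) (snd.comp snd))).to₂

theorem pr_cyl {w : α → List ℕ} (hm : Primrec m) (hf : Primrec f) (hw : Primrec w) :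
    Primrec fun a => cyl (m a) (f a) (w a) := by
  have hwid : Primrec fun a => width (base (m a)) 4 (w a) :=
    pr_pow (pr_base hm) (nat_sub.comp (const 4) (list_length.comp hw))
  have h1 := nat_add.comp (nat_mul.comp hf (pr_scale hm))
    (nat_mul.comp (pr_numer (pr_base hm) hw) hwid)
  exact Primrec.pair h1 (nat_add.comp h1 hwid)

theorem pr_dedup {β : Type} [Primcodable β] [DecidableEq β] {l : α → List β} (hl : Primrec l) :
    Primrec fun a => dedupList (l a) :=
  list_foldr hl (const [])
    (Primrec.ite (nat_lt.comp (list_idxOf.comp (fst.comp snd) (snd.comp snd))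
      (list_length.comp (snd.comp snd))) (snd.comp snd)
      (list_cons.comp (fst.comp snd) (snd.comp snd))).to₂

theorem pr_program (hm : Primrec m) : Primrec fun a => program (m a) := by
  have hn : ∀ {β : Type} [Primcodable β], Primrec fun _ : β => ([] : List ℕ) := const []
  have hmA : Primrec fun x : α × (ℕ × ℕ) => m x.1 := hm.comp fst
  have hA : Primrec fun a => stageA (m a) := by
    refine list_map (pr_product (list_range.comp (pr_numLabels hm))
      (list_range.comp (pr_numDigits hm))) ?_
    have h1 := fst.comp (snd (α := α) (β := ℕ × ℕ))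
    have h2 := snd.comp (snd (α := α) (β := ℕ × ℕ))
    exact (Primrec.pair (pr_cyl hmA (pr_restY h1) (list_cons.comp h2 hn))
      (Primrec.pair (pr_cyl hmA (pr_restX hmA h1) hn)
        (pr_cyl hmA (nat_add.comp (pr_restX hmA h1) (pr_shift1 hmA h2)) hn))).to₂
  have hmS : Primrec fun x : α × Src => m x.1 := hm.comp fst
  have hs := snd (α := α) (β := Src)
  have hq := fst.comp hs
  have hl := fst.comp (snd.comp hs)
  have hr := snd.comp (snd.comp hs)
  have ht := pr_target hmS hs
  have c1 := pr_cyl hmS (nat_add.comp (pr_restX hmS hq) (pr_shift1 hmS hr))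
    (list_cons.comp hl hn)
  have c2 := pr_cyl hmS (pr_restY hq) (list_cons.comp hr hn)
  have c3 := pr_cyl hmS (nat_add.comp (pr_restY (fst.comp ht))
    (pr_shift2 hmS (fst.comp (snd.comp ht)))) (snd.comp (snd.comp ht))
  have c4 := pr_cyl hmS (pr_restX hmS (fst.comp ht)) (fst.comp (snd.comp ht))
  have hB : Primrec fun a => stageB (m a) :=
    list_map (pr_ruleSources hm) (Primrec.pair c1 (Primrec.pair c2 c3)).to₂
  have hC : Primrec fun a => stageC (m a) :=
    list_map (pr_ruleSources hm) (Primrec.pair c3 (Primrec.pair c1 c4)).to₂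
  have hcls : Primrec fun a => classes (m a) :=
    pr_dedup (list_map (pr_ruleSources hm)
      (Primrec.pair (fst.comp ht) (fst.comp (snd.comp ht))).to₂)
  have hmC : Primrec fun x : α × (ℕ × List ℕ) => m x.1 := hm.comp fst
  have hd : Primrec fun a => stageD (m a) := by
    refine list_map hcls ?_
    have h1 := fst.comp (snd (α := α) (β := ℕ × List ℕ))
    have h2 := snd.comp (snd (α := α) (β := ℕ × List ℕ))
    exact (Primrec.pair (pr_cyl hmC (pr_restX hmC h1) h2)
      (Primrec.pair (pr_cyl hmC (nat_add.comp (pr_restY h1) (pr_shift2 hmC h2)) hn)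
        (pr_cyl hmC (pr_restY h1) hn))).to₂
  exact Primrec.pair (pr_unit hm) (Primrec.pair hA (Primrec.pair hB (Primrec.pair hC hd)))

end

theorem primrec_input :
    Primrec fun z : Machine × List ℕ => (program z.1, startData z.1 z.2) := by
  have hm : Primrec fun z : Machine × List ℕ => z.1 := fst
  have hlab : Primrec fun z : Machine × List ℕ => (initCfg z.1 z.2).1 := pr_start hm
  have hR : Primrec fun z : Machine × List ℕ => (initCfg z.1 z.2).2.2 :=
    list_append.comp
      (list_map snd (nat_mod.comp snd (pr_numSymbols (hm.comp fst))).to₂)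
      (list_cons.comp (pr_bot hm) (const []))
  have hs := pr_scale hm
  have hx := nat_mul.comp (pr_restX hm hlab) hs
  have hp := pr_pow (pr_base hm) (list_length.comp hR)
  have hy := nat_mul.comp (nat_add.comp (nat_mul.comp (pr_restY hlab) hp)
    (pr_numer (pr_base hm) hR)) hs
  exact Primrec.pair (pr_program hm) (Primrec.pair
    (Primrec.pair hx (Primrec.pair (const 0) (nat_sub.comp (pr_unit hm) (const 1))))
    (Primrec.pair hy (Primrec.pair (const 0)
      (nat_sub.comp (nat_mul.comp (pr_unit hm) hp) (const 1)))))

end Vale.Agent.P113.Disc
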