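import Vale.Agent.P113.Disc.Rules

/-!
P113: the two-stack system simulates the machine.
-/

namespace Vale.Agent.P113.Disc

open Machine

variable (M : Machine)

/-- `(label, left stack, right stack)`. -/
abbrev Cfg2 : Type := ℕ × List ℕ × List ℕ

def srcOf (z : Cfg2) : Src := (z.1, z.2.1.headD 0, z.2.2.headD 0)

def Live (z : Cfg2) : Prop := valid M (srcOf z) = true

def next (z : Cfg2) : Cfg2 :=
  ((target M (srcOf z)).1, (target M (srcOf z)).2.1 ++ z.2.1.tail,
    (target M (srcOf z)).2.2 ++ z.2.2.tail)

structure DigOK (z : Cfg2) : Prop where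
  lab : z.1 < numLabels M
  digL : ∀ d ∈ z.2.1, d < numDigits M
  digR : ∀ d ∈ z.2.2, d < numDigits M

theorem next_digOK {z : Cfg2} (hz : DigOK M z) (hl : Live M z) : DigOK M (next M z) := by
  have ht := target_ok M hl
  refine ⟨ht.dst_lt, ?_, ?_⟩ <;> intro d hd <;> rcases List.mem_append.mp hd with h | h
  · exact ht.digL d h
  · exact hz.digL d (List.mem_of_mem_tail h)
  · exact ht.digR d h
  · exact hz.digR d (List.mem_of_mem_tail h)

/-- `n` live steps lead from `z` to `z'`. -/
def Steps (n : ℕ) (z z' : Cfg2) : Prop :=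
  (next M)^[n] z = z' ∧ ∀ m < n, Live M ((next M)^[m] z)

theorem Steps.single {z z' : Cfg2} (h : Live M z) (h' : next M z = z') : Steps M 1 z z' :=
  ⟨h', fun m hm => by obtain rfl : m = 0 := (by omega); exact h⟩

theorem Steps.zero (z : Cfg2) : Steps M 0 z z := ⟨rfl, fun m hm => by omega⟩

theorem Steps.trans {n m : ℕ} {a b c : Cfg2} (h₁ : Steps M n a b) (h₂ : Steps M m b c) :
    Steps M (n + m) a c := by
  refine ⟨?_, fun j hj => ?_⟩
  · rw [Nat.add_comm, Function.iterate_add_apply, h₁.1, h₂.1]
  · by_cases hjn : j < n
    · exact h₁.2 j hjn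
    · have : j = (j - n) + n := by omega
      rw [this, Function.iterate_add_apply, h₁.1]
      exact h₂.2 _ (by omega)

theorem collect_loop {k : ℕ} (hk : k < numKeys M) (T H : List ℕ) :
    ∀ (Rs P : List ℕ), (∀ d ∈ Rs, d < M.numSymbols) → (∀ d ∈ P, d < M.numSymbols) →
      ∃ n, Steps M n (collect M k, P ++ sep M :: T, Rs ++ bot M :: H)
        (collect M k, Rs.reverse ++ P ++ sep M :: T, bot M :: H) := by
  intro Rs
  induction Rs with
  | nil => intro P _ _; exact ⟨0, by simpa using Steps.zero M _⟩
  | cons r Rs ih =>
    intro P hR hP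
    have hr : r < M.numSymbols := hR r List.mem_cons_self
    obtain ⟨n, hn⟩ := ih (r :: P) (fun d hd => hR d (List.mem_cons_of_mem _ hd)) (by
      intro d hd; rcases List.mem_cons.mp hd with rfl | hd
      · exact hr
      · exact hP d hd)
    refine ⟨1 + n, Steps.trans M (Steps.single M ?_ ?_) (by simpa using hn)⟩
    · cases P with
      | nil => simp [Live, srcOf, valid, collect, hk, sep, hr]
      | cons p P =>
        have := hP p List.mem_cons_self
        simp [Live, srcOf, valid, collect, hk, sep, hr]; omega
    · cases P <;> simp [next, srcOf, target, collectTgt, collect, hk, hr]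

theorem ret_loop {q : ℕ} (hq : q < M.numStates) (T H : List ℕ) :
    ∀ (Q : List ℕ) (r : ℕ) (Rs : List ℕ), (∀ d ∈ Q, d < M.numSymbols) → r < M.numSymbols →
      ∃ n, Steps M n (ret M q, Q ++ sep M :: T, r :: Rs ++ bot M :: H)
        (ready q, T, Q.reverse ++ r :: Rs ++ bot M :: H) := by
  intro Q
  have h2 : ¬ M.numStates + numKeys M + q < M.numStates := by omega
  have h3 : ¬ M.numStates + numKeys M + q < M.numStates + numKeys M := by omega
  induction Q with
  | nil =>
    intro r Rs _ hr
    refine ⟨1, Steps.single M ?_ ?_⟩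
    · simp [Live, srcOf, valid, ret, h2, h3, sep, hr, numLabels]; omega
    · simp [next, srcOf, target, retTgt, ret, h2, h3, sep]
  | cons l Q ih =>
    intro r Rs hQ hr
    have hl : l < M.numSymbols := hQ l List.mem_cons_self
    obtain ⟨n, hn⟩ := ih l (r :: Rs) (fun d hd => hQ d (List.mem_cons_of_mem _ hd)) hl
    refine ⟨1 + n, Steps.trans M (Steps.single M ?_ ?_) (by simpa using hn)⟩
    · simp [Live, srcOf, valid, ret, h2, h3, sep, hr, numLabels]; omega
    · simp [next, srcOf, target, retTgt, ret, h2, h3, hl]

/-- From the beginning of the collecting sweep back to a ready label. -/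
theorem sweep {k : ℕ} (hk : k < numKeys M) (T H Rs : List ℕ)
    (hR : ∀ d ∈ Rs, d < M.numSymbols) :
    ∃ n, Steps M n (collect M k, sep M :: T, Rs ++ bot M :: H)
      (ready (M.newState (keyState M k) (keyLetter M k)), T, Rs ++ bot M :: hist M k :: H) := by
  obtain ⟨n, hn⟩ := collect_loop M hk T H Rs [] hR (by simp)
  have hq := newState_lt M (keyState M k) (keyLetter M k)
  have hb : ¬ bot M < M.numSymbols := by simp [bot]
  rcases List.eq_nil_or_concat Rs with rfl | ⟨Rs', l, rfl⟩
  · refine ⟨n + 1, Steps.trans M hn (Steps.single M ?_ ?_)⟩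
    · simp [Live, srcOf, valid, collect, hk, sep, bot]
    · simp [next, srcOf, target, collectTgt, collect, hk, hb, sep]
  · simp only [List.concat_eq_append] at *
    have hl : l < M.numSymbols := hR l (by simp)
    obtain ⟨m, hm⟩ := ret_loop M hq T (hist M k :: H) Rs'.reverse l []
      (fun d hd => hR d (by simp at hd; simp [hd])) hl
    refine ⟨n + 1 + m, Steps.trans M (Steps.trans M hn (Steps.single M ?_ ?_))
      (by simpa using hm)⟩
    · simp [Live, srcOf, valid, collect, hk, sep, bot]; omega
    · simp [next, srcOf, target, collectTgt, collect, hk, hb, hl]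

/-- The relation between configurations and stacks. -/
def Rel (c : Machine.Cfg) (z : Cfg2) : Prop :=
  z.1 = ready c.state ∧ c.state < M.numStates ∧ DigOK M z ∧ (∀ d ∈ z.2.1, d < M.numSymbols) ∧
    ∃ Rs H, z.2.2 = Rs ++ bot M :: H ∧ (∀ d ∈ Rs, d < M.numSymbols) ∧
      ∀ i : ℕ, z.2.1.getD i 0 = c.tape (c.head - 1 - i) ∧ Rs.getD i 0 = c.tape (c.head + i)

theorem getD_tail (l : List ℕ) (i : ℕ) : l.tail.getD i 0 = l.getD (i + 1) 0 := by
  cases l <;> simp

theorem headD_lt {l : List ℕ} {N : ℕ} (hN : 0 < N) (h : ∀ d ∈ l, d < N) : l.headD 0 < N := by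
  cases l <;> simp_all

theorem steps_digOK {n : ℕ} {z z' : Cfg2} (hz : DigOK M z) (h : Steps M n z z') :
    DigOK M z' := by
  induction n generalizing z' with
  | zero => rw [← h.1]; exact hz
  | succ n ih =>
    have h1 : Steps M n z ((next M)^[n] z) := ⟨rfl, fun m hm => h.2 m (by omega)⟩
    rw [← h.1, Function.iterate_succ_apply']
    exact next_digOK M (ih h1) (h.2 n (by omega))

theorem step_sim {c : Machine.Cfg} {z : Cfg2} (h : Rel M c z)
    (hh : M.isHalting c.state = false) :
    ∃ n z', 1 ≤ n ∧ Steps M n z z' ∧ Rel M (M.step c) z' := by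
  obtain ⟨hz1, hq, hdig, hL, Rs, H, hR, hRs, hget⟩ := h
  obtain ⟨q, L, R⟩ := z
  simp only [ready] at hz1 hR hL hget
  subst hz1 hR
  have hA := numSymbols_pos M
  have hl := headD_lt hA hL
  have hl' : L.head?.getD 0 < M.numSymbols := by simpa using hl
  have hget' := fun i => (hget i).1
  have hget'' := fun i => (hget i).2
  -- the letter under the head and the top index
  have key₀ : ∃ r, (Rs ++ bot M :: H).headD 0 = r ∧ (r < M.numSymbols ∨ r = bot M) ∧
      keyLetter M (key M c.state (topIndex M r)) = c.tape c.head ∧
      (if r < M.numSymbols then [] else [bot M]) ++ (Rs ++ bot M :: H).tail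
        = Rs.tail ++ bot M :: H := by
    have h0 : Rs.getD 0 0 = c.tape c.head := by simpa using hget'' 0
    cases Rs with
    | nil =>
      refine ⟨bot M, rfl, Or.inr rfl, ?_, by simp [bot]⟩
      rw [keyLetter, keyTop_key M (topIndex_le M _)]
      simpa [topIndex, bot] using h0
    | cons r Rs =>
      have hr : r < M.numSymbols := hRs r List.mem_cons_self
      refine ⟨r, rfl, Or.inl hr, ?_, by simp [hr]⟩
      rw [keyLetter, keyTop_key M (topIndex_le M _)]
      simpa [topIndex, hr, Nat.ne_of_lt hr] using h0
  obtain ⟨r, hr0, hr, hlet, hrest⟩ := key₀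
  have hk := key_lt M hq (topIndex_le M r)
  have hks : keyState M (key M c.state (topIndex M r)) = c.state := keyState_key M (topIndex_le M r)
  set k := key M c.state (topIndex M r) with hkdef
  set s := M.newSymbol c.state (c.tape c.head) with hsdef
  have hs : s < M.numSymbols := newSymbol_lt M _ _
  have hlive : Live M (c.state, L, Rs ++ bot M :: H) := by
    simp only [Live, srcOf, hr0]
    simp [valid, hq, hh, hl']
    exact hr
  have hRtl : ∀ d ∈ Rs.tail, d < M.numSymbols := fun d hd => hRs d (List.mem_of_mem_tail hd)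
  have hLtl : ∀ d ∈ L.tail, d < M.numSymbols := fun d hd => hL d (List.mem_of_mem_tail hd)
  have main : ∀ T Rs' : List ℕ, next M (c.state, L, Rs ++ bot M :: H)
      = (collect M k, sep M :: T, Rs' ++ bot M :: H) →
      (∀ d ∈ T, d < M.numSymbols) → (∀ d ∈ Rs', d < M.numSymbols) →
      (∀ i : ℕ, T.getD i 0 = (M.step c).tape ((M.step c).head - 1 - i) ∧
        Rs'.getD i 0 = (M.step c).tape ((M.step c).head + i)) →
      ∃ n z', 1 ≤ n ∧ Steps M n (c.state, L, Rs ++ bot M :: H) z' ∧ Rel M (M.step c) z' := by
    intro T Rs' hnext hT hRs' hnew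
    obtain ⟨n, hn⟩ := sweep M hk T H Rs' hRs'
    have hsteps := Steps.trans M (Steps.single M hlive hnext) hn
    refine ⟨1 + n, _, by omega, hsteps, ?_, ?_, steps_digOK M hdig hsteps, hT, Rs', _, rfl,
      hRs', hnew⟩
    · simp [Machine.step, hh, hks, hlet, ready]
    · simp [Machine.step, hh, newState_lt]
  by_cases h0 : (M.entry c.state (c.tape c.head)).2.2 = 0
  · refine main L.tail (L.headD 0 :: s :: Rs.tail) ?_ hLtl ?_ fun i => ?_
    · simp only [next, srcOf, hr0]
      simp [target, hq, readyTgt, ← hkdef, hlet, h0, ← hsdef, hrest]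
    · simp [hl', hs]; exact hRtl
    · have hstep : M.step c = ⟨M.newState c.state (c.tape c.head), c.head - 1,
          Function.update c.tape c.head s⟩ := by
        simp [Machine.step, hh, Machine.move, h0, ← hsdef, sub_eq_add_neg]
      rw [hstep]
      dsimp only
      refine ⟨?_, ?_⟩
      · rw [getD_tail, hget', Function.update_of_ne (by push_cast; omega)]
        congr 1; push_cast; omega
      · match i with
        | 0 =>
          rw [List.getD_cons_zero, Function.update_of_ne (by omega)]
          have := hget' 0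
          cases L <;> simpa using this
        | 1 => simp
        | j + 2 =>
          rw [List.getD_cons_succ, List.getD_cons_succ, getD_tail, hget'',
            Function.update_of_ne (by push_cast; omega)]
          congr 1; push_cast; omega
  by_cases h1 : (M.entry c.state (c.tape c.head)).2.2 = 1
  · refine main (s :: L.headD 0 :: L.tail) Rs.tail ?_ ?_ hRtl fun i => ?_
    · simp only [next, srcOf, hr0]
      simp [target, hq, readyTgt, ← hkdef, hlet, h1, ← hsdef, hrest]
    · simp [hl', hs]; exact hLtl
    · have hstep : M.step c = ⟨M.newState c.state (c.tape c.head), c.head + 1,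
          Function.update c.tape c.head s⟩ := by
        simp [Machine.step, hh, Machine.move, h1, ← hsdef]
      rw [hstep]
      dsimp only
      refine ⟨?_, ?_⟩
      · match i with
        | 0 => simp
        | 1 =>
          rw [List.getD_cons_succ, List.getD_cons_zero, Function.update_of_ne (by omega)]
          have := hget' 0
          cases L <;> simpa using this
        | j + 2 =>
          rw [List.getD_cons_succ, List.getD_cons_succ, getD_tail, hget',
            Function.update_of_ne (by push_cast; omega)]
          congr 1; push_cast; omega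
      · rw [getD_tail, hget'', Function.update_of_ne (by push_cast; omega)]
        congr 1; push_cast; omega
  · refine main (L.headD 0 :: L.tail) (s :: Rs.tail) ?_ ?_ ?_ fun i => ?_
    · simp only [next, srcOf, hr0]
      simp [target, hq, readyTgt, ← hkdef, hlet, h0, h1, ← hsdef, hrest]
    · simp [hl']; exact hLtl
    · simp [hs]; exact hRtl
    · have hstep : M.step c = ⟨M.newState c.state (c.tape c.head), c.head,
          Function.update c.tape c.head s⟩ := by
        simp [Machine.step, hh, Machine.move, h0, h1, ← hsdef]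
      rw [hstep]
      dsimp only
      refine ⟨?_, ?_⟩
      · rw [Function.update_of_ne (by push_cast; omega)]
        match i with
        | 0 =>
          have := hget' 0
          cases L <;> simpa using this
        | j + 1 => rw [List.getD_cons_succ, getD_tail, hget']
      · match i with
        | 0 => simp
        | j + 1 =>
          rw [List.getD_cons_succ, getD_tail, hget'',
            Function.update_of_ne (by push_cast; omega)]

/-- The stacks of the start. -/
def initCfg (w : List ℕ) : Cfg2 :=
  (ready M.start, [], w.map (fun a => a % M.numSymbols) ++ [bot M])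

theorem rel_init (w : List ℕ) : Rel M (M.init w) (initCfg M w) := by
  have hA := numSymbols_pos M
  have hq : M.start < M.numStates := Nat.mod_lt _ (numStates_pos M)
  refine ⟨rfl, hq, ⟨?_, by simp [initCfg], ?_⟩, by simp [initCfg],
    w.map (fun a => a % M.numSymbols), [], rfl, ?_, fun i => ⟨?_, ?_⟩⟩
  · simp [initCfg, ready, numLabels]; omega
  · intro d hd
    simp [initCfg] at hd
    rcases hd with ⟨a, -, rfl⟩ | rfl
    · have := Nat.mod_lt a hA; unfold numDigits; omega
    · have := numKeys_pos M; unfold numDigits bot; omega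
  · simp; intro a _; exact Nat.mod_lt a hA
  · simp [initCfg, Machine.init]; omega
  · simp [Machine.init]
    cases w[i]? <;> simp

theorem progress (w : List ℕ) : ∀ k : ℕ,
    (∀ j < k, M.isHalting (M.step^[j] (M.init w)).state = false) →
    ∃ n z, k ≤ n ∧ Steps M n (initCfg M w) z ∧ Rel M (M.step^[k] (M.init w)) z := by
  intro k
  induction k with
  | zero => intro _; exact ⟨0, _, le_rfl, Steps.zero M _, rel_init M w⟩
  | succ k ih =>
    intro hk
    obtain ⟨n, z, hn, hs, hr⟩ := ih fun j hj => hk j (by omega)
    obtain ⟨m, z', hm, hs', hr'⟩ := step_sim M hr (hk k (by omega))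
    refine ⟨n + m, z', by omega, Steps.trans M hs hs', ?_⟩
    rw [Function.iterate_succ_apply']; exact hr'

theorem digOK_init (w : List ℕ) : DigOK M (initCfg M w) := (rel_init M w).2.2.1

theorem sim_halts {w : List ℕ} (h : M.Halts w) :
    ∃ n, (∀ m < n, Live M ((next M)^[m] (initCfg M w))) ∧
      haltLabel M ((next M)^[n] (initCfg M w)).1 = true := by
  classical
  have h' : ∃ k, M.isHalting (M.step^[k] (M.init w)).state = true := h
  obtain ⟨n, z, -, hs, hz⟩ := progress M w (Nat.find h')
    fun j hj => by simpa using Nat.find_min h' hj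
  refine ⟨n, hs.2, ?_⟩
  rw [hs.1, hz.1]
  simp [haltLabel, ready, hz.2.1, Nat.find_spec h']

theorem sim_runs {w : List ℕ} (h : ¬ M.Halts w) (n : ℕ) :
    Live M ((next M)^[n] (initCfg M w)) := by
  obtain ⟨m, z, hm, hs, -⟩ := progress M w (n + 1) fun j _ => by
    simp only [Machine.Halts, not_exists] at h
    simpa using h j
  exact hs.2 n (by omega)

end Vale.Agent.P113.Disc
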