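import Vale.Agent.P113.Disc.Layout
import Vale.Agent.P113.Disc.Sim

/-!
P113: one period of the program performs one step of the two-stack system on the plane points
of the configurations; bounds deciding membership in the box.
-/

namespace Vale.Agent.P113.Disc

open Set

variable (M : Machine)

/-- The point of relative position `t` in the interval `I`, in units `1/U`. -/
noncomputable def at' (U : ℕ) (I : ℕ × ℕ) (t : ℝ) : ℝ :=
  ((I.1 : ℝ) + ((I.2 : ℝ) - I.1) * t) / U

/-- The point of a stack in lane `n`. -/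
noncomputable def lanePt (n : ℕ) (w : List ℕ) : ℝ :=
  ((n : ℝ) + stackCode (base M) w) * scale M / unit M

theorem at'_map {U : ℕ} (hU : 0 < U) {p : Piece} (h : p.src.1 < p.src.2) (t : ℝ) :
    p.map U (at' U p.src t) = at' U p.dst t := by
  have h1 : ((p.src.2 : ℝ) - p.src.1) ≠ 0 := by
    have : (p.src.1 : ℝ) < p.src.2 := by exact_mod_cast h
    exact (sub_pos.mpr this).ne'
  have hU' : (U : ℝ) ≠ 0 := by exact_mod_cast hU.ne'
  simp only [Piece.map, at']
  field_simp
  ring

theorem at'_mem {U : ℕ} (hU : 0 < U) {I : ℕ × ℕ} (h : I.1 ≤ I.2) {t : ℝ} (h0 : 0 ≤ t)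
    (h1 : t ≤ 1) : Piece.Mem U I (at' U I t) := by
  have hle : (I.1 : ℝ) ≤ I.2 := by exact_mod_cast h
  have hU' : (0 : ℝ) < U := by exact_mod_cast hU
  constructor <;> simp only [at'] <;> gcongr <;> nlinarith

theorem lanePt_append (n : ℕ) {p : List ℕ} (hp : p.length ≤ 4) (T : List ℕ) :
    lanePt M n (p ++ T) = at' (unit M) (cyl M n p) (stackCode (base M) T) := by
  have h := stackCode_append (base M) 4 (base_pos M) p T hp
  simp only [lanePt, at', cyl, scale]
  push_cast
  congr 1
  linear_combination h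

theorem lanePt_headD (n : ℕ) (L : List ℕ) :
    lanePt M n L = at' (unit M) (cyl M n [L.headD 0]) (stackCode (base M) L.tail) := by
  rw [← lanePt_append M n (by simp)]
  simp [lanePt, stackCode_headD (base M) L]

theorem lanePt_nil (n : ℕ) (L : List ℕ) :
    lanePt M n L = at' (unit M) (cyl M n []) (stackCode (base M) L) := by
  simpa using lanePt_append M n (p := []) (by simp) L

theorem code_tail_mem {w : List ℕ} (h : ∀ d ∈ w, d < numDigits M) :
    0 ≤ stackCode (base M) w.tail ∧ stackCode (base M) w.tail ≤ 1 :=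
  stackCode_mem (one_le_numDigits M) _ fun d hd => h d (List.mem_of_mem_tail hd)

theorem code_mem {w : List ℕ} (h : ∀ d ∈ w, d < numDigits M) :
    0 ≤ stackCode (base M) w ∧ stackCode (base M) w ≤ 1 :=
  stackCode_mem (one_le_numDigits M) _ h

theorem headD_dig {w : List ℕ} (h : ∀ d ∈ w, d < numDigits M) : w.headD 0 < numDigits M :=
  headD_lt (one_le_numDigits M) h

theorem unit_pos : 0 < unit M := by have := twenty_le_unit M; omega

/-- The abscissa after the first stage. -/
noncomputable def midX (z : Cfg2) : ℝ :=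
  lanePt M (restX M z.1 + shift1 M (z.2.2.headD 0)) z.2.1

noncomputable def posX (z : Cfg2) : ℝ := lanePt M (restX M z.1) z.2.1
noncomputable def posY (z : Cfg2) : ℝ := lanePt M (restY z.1) z.2.2

theorem stepTo {z : Cfg2} (hz : DigOK M z) (hl : Live M z) :
    (program M).StepTo (posX M z) (posY M z) (midX M z)
      (posX M (next M z)) (posY M (next M z)) := by
  obtain ⟨a, L, R⟩ := z
  have ha : a < numLabels M := hz.lab
  have hL : ∀ d ∈ L, d < numDigits M := hz.digL
  have hR : ∀ d ∈ R, d < numDigits M := hz.digR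
  have hl' : valid M (a, L.headD 0, R.headD 0) = true := hl
  have ht := target_ok M hl'
  have hU := unit_pos M
  set r := R.headD 0 with hr
  set l := L.headD 0 with hlh
  set tg := target M (a, l, r) with htg
  have hr' : r < numDigits M := headD_dig M hR
  have hl'' : l < numDigits M := headD_dig M hL
  obtain ⟨cL0, cL1⟩ := code_mem M hL
  obtain ⟨cl0, cl1⟩ := code_tail_mem M hL
  obtain ⟨cr0, cr1⟩ := code_tail_mem M hR
  have hnx : next M (a, L, R) = (tg.1, tg.2.1 ++ L.tail, tg.2.2 ++ R.tail) := rfl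
  have hR'' : ∀ d ∈ tg.2.2 ++ R.tail, d < numDigits M := by
    intro d hd; rcases List.mem_append.mp hd with h | h
    · exact ht.digR d h
    · exact hR d (List.mem_of_mem_tail h)
  obtain ⟨cR0, cR1⟩ := code_mem M hR''
  have len4 : tg.2.1.length ≤ 4 ∧ tg.2.2.length ≤ 4 := ⟨by have := ht.lenL; omega,
    by have := ht.lenR; omega⟩
  have cle : ∀ (n : ℕ) (w : List ℕ), w.length ≤ 4 → (∀ d ∈ w, d < numDigits M) →
      (cyl M n w).1 < (cyl M n w).2 := fun n w h1 h2 => (cyl_lt M h1 h2).1
  refine ⟨lanePt M (restY tg.1 + shift2 M tg.2.1) (tg.2.2 ++ R.tail), ?_, ?_, ?_, ?_⟩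
  · refine ⟨piece1 M (a, r), List.mem_map_of_mem (by simp [ha, hr']), ?_, ?_, ?_⟩
    · simp only [posX, piece1, Piece.src]
      rw [lanePt_nil]; exact at'_mem hU (cle _ _ (by simp) (by simp)).le cL0 cL1
    · simp only [posY, piece1, Piece.sel]
      rw [lanePt_headD]
      exact at'_mem hU (cle _ _ (by simp) (by simpa using hr')).le cr0 cr1
    · simp only [posX, midX, piece1]
      rw [lanePt_nil, lanePt_nil]
      exact (at'_map hU (p := piece1 M (a, r))
        (cle _ _ (by simp) (by simp)) _).symm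
  · refine ⟨piece2 M (a, l, r), List.mem_map_of_mem ((mem_ruleSources M).mpr hl'), ?_, ?_, ?_⟩
    · simp only [posY, piece2, Piece.src]
      rw [lanePt_headD]
      exact at'_mem hU (cle _ _ (by simp) (by simpa using hr')).le cr0 cr1
    · simp only [midX, piece2, Piece.sel, ← hr]
      rw [lanePt_headD]
      exact at'_mem hU (cle _ _ (by simp) (by simpa using hl'')).le cl0 cl1
    · simp only [posY]
      rw [lanePt_append M _ len4.2, lanePt_headD]
      exact (at'_map hU (p := piece2 M (a, l, r))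
        (cle _ _ (by simp) (by simpa using hr')) _).symm
  · refine ⟨piece3 M (a, l, r), List.mem_map_of_mem ((mem_ruleSources M).mpr hl'), ?_, ?_, ?_⟩
    · simp only [midX, piece3, Piece.src, ← hr]
      rw [lanePt_headD]
      exact at'_mem hU (cle _ _ (by simp) (by simpa using hl'')).le cl0 cl1
    · simp only [piece3, Piece.sel, ← htg]
      rw [lanePt_append M _ len4.2]
      exact at'_mem hU (cle _ _ len4.2 ht.digR).le cr0 cr1
    · simp only [midX, posX, hnx, ← hr]
      rw [lanePt_append M _ len4.1, lanePt_headD]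
      exact (at'_map hU (p := piece3 M (a, l, r))
        (cle _ _ (by simp) (by simpa using hl'')) _).symm
  · refine ⟨piece4 M (tg.1, tg.2.1), List.mem_map_of_mem
      ((mem_classes M).mpr ⟨_, hl', rfl⟩), ?_, ?_, ?_⟩
    · simp only [piece4, Piece.src]
      rw [lanePt_nil]; exact at'_mem hU (cle _ _ (by simp) (by simp)).le cR0 cR1
    · simp only [posX, hnx, piece4, Piece.sel]
      rw [lanePt_append M _ len4.1]
      exact at'_mem hU (cle _ _ len4.1 ht.digL).le cl0 cl1
    · simp only [posY, hnx]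
      rw [lanePt_nil, lanePt_nil]
      exact (at'_map hU (p := piece4 M (tg.1, tg.2.1))
        (cle _ _ (by simp) (by simp)) _).symm

theorem lanePt_bounds {n : ℕ} {w : List ℕ} (hw : ∀ d ∈ w, d < numDigits M) :
    (n : ℝ) / (20 * laneCap M) ≤ lanePt M n w ∧
      lanePt M n w ≤ ((n : ℝ) + 1) / (20 * laneCap M) := by
  obtain ⟨h0, h1⟩ := code_mem M hw
  have hs : (0 : ℝ) < scale M := by
    have := two_le_scale M; exact_mod_cast (by omega : 0 < scale M)
  have hW : (0 : ℝ) < laneCap M := by
    exact_mod_cast (by unfold laneCap; omega : 0 < laneCap M)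
  have e : lanePt M n w = ((n : ℝ) + stackCode (base M) w) / (20 * laneCap M) := by
    simp only [lanePt, unit]
    push_cast
    field_simp
  rw [e]
  constructor <;> gcongr <;> linarith

theorem live_label {z : Cfg2} (hl : Live M z) : haltLabel M z.1 = false :=
  (src_nonhalt M hl).1

theorem posX_live {z : Cfg2} (hz : DigOK M z) (hl : Live M z) :
    posX M z ∈ Icc 0 (3 / 10 : ℝ) ∧ midX M z ∈ Icc 0 (3 / 10 : ℝ) := by
  have hh := live_label M hl
  have hr := headD_dig M hz.digR
  have h1 := restY_shift1_bd M hz.lab hr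
  have h0 : 2 * z.1 + 1 ≤ 6 * laneCap M := by omega
  have h2 : 2 * z.1 + shift1 M (z.2.2.headD 0) + 1 ≤ 6 * laneCap M := by omega
  have hW : (0 : ℝ) < laneCap M := by
    exact_mod_cast (by unfold laneCap; omega : 0 < laneCap M)
  have key : ∀ n : ℕ, n + 1 ≤ 6 * laneCap M → lanePt M n z.2.1 ∈ Icc 0 (3 / 10 : ℝ) := by
    intro n hn
    obtain ⟨g0, g1⟩ := lanePt_bounds M (n := n) hz.digL
    have hn' : (n : ℝ) + 1 ≤ 6 * laneCap M := by exact_mod_cast hn
    refine ⟨le_trans (by positivity) g0, le_trans g1 ?_⟩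
    rw [div_le_iff₀ (by positivity)]
    linarith
  refine ⟨key _ ?_, key _ ?_⟩ <;> simp only [restX, hh, Bool.false_eq_true, if_false] <;> omega

theorem posX_halt {z : Cfg2} (hz : DigOK M z) (hh : haltLabel M z.1 = true) :
    (3 / 5 : ℝ) < posX M z ∧ posX M z < 4 / 5 := by
  have h1 := numLabels_mul_le M (c := 1) (Nat.one_le_pow _ _ (by omega))
  have hl := hz.lab
  have hn : 12 * laneCap M + 1 ≤ restX M z.1 ∧ restX M z.1 + 2 ≤ 16 * laneCap M := by
    simp only [restX, hh, if_true]; omega
  have hW : (0 : ℝ) < laneCap M := by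
    exact_mod_cast (by unfold laneCap; omega : 0 < laneCap M)
  obtain ⟨g0, g1⟩ := lanePt_bounds M (n := restX M z.1) hz.digL
  have a1 : (12 : ℝ) * laneCap M + 1 ≤ restX M z.1 := by exact_mod_cast hn.1
  have a2 : (restX M z.1 : ℝ) + 2 ≤ 16 * laneCap M := by exact_mod_cast hn.2
  constructor
  · refine lt_of_lt_of_le ?_ g0
    rw [lt_div_iff₀ (by positivity)]; linarith
  · refine lt_of_le_of_lt g1 ?_
    rw [div_lt_iff₀ (by positivity)]; linarith

end Vale.Agent.P113.Disc
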