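import Vale.Agent.P113.Disc.Rules

/-!
P113: the program of a machine and the proof that it is well formed.

All positions are naturals in units `1/U`, where `U = 20 W B⁴`; lanes have even indices and
width `B⁴` units.
-/

namespace Vale.Agent.P113.Disc

variable (M : Machine)

def base : ℕ := 2 * numDigits M
def scale : ℕ := base M ^ 4
def laneCap : ℕ := 2 * (numLabels M * (numDigits M + 2) ^ 3 + 1)
def unit : ℕ := 20 * laneCap M * scale M

def restX (a : ℕ) : ℕ := if haltLabel M a then 13 * laneCap M + 2 * a else 2 * a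
def restY (a : ℕ) : ℕ := 2 * a
def shift1 (r : ℕ) : ℕ := 2 * numLabels M * (1 + r)

/-- An index of a word, injective on words of digits. -/
def wordIdx (w : List ℕ) : ℕ := w.foldr (fun d acc => d + 1 + (numDigits M + 1) * acc) 0

def shift2 (w : List ℕ) : ℕ := 2 * numLabels M * (1 + wordIdx M w)

/-- The cylinder of the word `w` in lane `n`. -/
def cyl (n : ℕ) (w : List ℕ) : ℕ × ℕ :=
  (n * scale M + lo (base M) 4 w, n * scale M + lo (base M) 4 w + width (base M) 4 w)

/-- Keep the last occurrence of each entry. -/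
def dedupList {α : Type} [DecidableEq α] (l : List α) : List α :=
  l.foldr (fun x acc => if acc.idxOf x < acc.length then acc else x :: acc) []

def piece1 (z : ℕ × ℕ) : Piece :=
  (cyl M (restY z.1) [z.2], cyl M (restX M z.1) [], cyl M (restX M z.1 + shift1 M z.2) [])

def piece2 (s : Src) : Piece :=
  (cyl M (restX M s.1 + shift1 M s.2.2) [s.2.1], cyl M (restY s.1) [s.2.2],
    cyl M (restY (target M s).1 + shift2 M (target M s).2.1) (target M s).2.2)

def piece3 (s : Src) : Piece :=
  (cyl M (restY (target M s).1 + shift2 M (target M s).2.1) (target M s).2.2,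
    cyl M (restX M s.1 + shift1 M s.2.2) [s.2.1],
    cyl M (restX M (target M s).1) (target M s).2.1)

def piece4 (c : ℕ × List ℕ) : Piece :=
  (cyl M (restX M c.1) c.2, cyl M (restY c.1 + shift2 M c.2) [], cyl M (restY c.1) [])

def classes : List (ℕ × List ℕ) :=
  dedupList ((ruleSources M).map fun s => ((target M s).1, (target M s).2.1))

def stageA : List Piece :=
  (List.range (numLabels M) ×ˢ List.range (numDigits M)).map (piece1 M)
def stageB : List Piece := (ruleSources M).map (piece2 M)
def stageC : List Piece := (ruleSources M).map (piece3 M)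
def stageD : List Piece := (classes M).map (piece4 M)

/-- The program of the machine. -/
def program : Program := (unit M, stageA M, stageB M, stageC M, stageD M)

/-! ### Well-formedness -/

theorem dedupList_spec {α : Type} [DecidableEq α] (l : List α) :
    (dedupList l).Nodup ∧ ∀ x, x ∈ dedupList l ↔ x ∈ l := by
  induction l with
  | nil => simp [dedupList]
  | cons a l ih =>
    have e : dedupList (a :: l) =
        if (dedupList l).idxOf a < (dedupList l).length then dedupList l else a :: dedupList l :=
      rfl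
    rw [e]
    simp only [List.idxOf_lt_length_iff]
    by_cases h : a ∈ dedupList l
    · simp only [h, if_true]
      refine ⟨ih.1, fun x => ?_⟩
      simp only [ih.2, List.mem_cons]
      have := (ih.2 a).mp h
      aesop
    · simp only [h, if_false]
      exact ⟨List.nodup_cons.mpr ⟨h, ih.1⟩, fun x => by simp [ih.2]⟩

theorem one_le_numDigits : 1 ≤ numDigits M :=
  le_trans (by norm_num) (two_le_numDigits M)

theorem base_pos : 0 < base M := by have := two_le_numDigits M; unfold base; omega

theorem two_le_scale : 2 ≤ scale M := by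
  unfold scale
  calc 2 ≤ base M ^ 1 := by have := two_le_numDigits M; simp [base]; omega
    _ ≤ base M ^ 4 := Nat.pow_le_pow_right (base_pos M) (by norm_num)

theorem numLabels_pos : 0 < numLabels M := by
  have := numStates_pos M; unfold numLabels; omega

theorem numLabels_mul_le {c : ℕ} (hc : c ≤ (numDigits M + 2) ^ 3) :
    2 * (numLabels M * c) + 2 ≤ laneCap M := by
  have := Nat.mul_le_mul_left (numLabels M) hc
  unfold laneCap; omega

theorem cyl_lt {n : ℕ} {w : List ℕ} (hw : w.length ≤ 4) (hd : ∀ d ∈ w, d < numDigits M) :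
    (cyl M n w).1 < (cyl M n w).2 ∧ n * scale M ≤ (cyl M n w).1 ∧
      (cyl M n w).2 ≤ (n + 1) * scale M := by
  have h1 := cyl_le (one_le_numDigits M) w 4 hw hd
  have h2 : 0 < width (base M) 4 w := pow_pos (base_pos M) _
  simp only [cyl, base, scale, add_mul, one_mul] at *
  omega

theorem lanes_apart {n m : ℕ} {w v : List ℕ} (hw : w.length ≤ 3) (hd : ∀ d ∈ w, d < numDigits M)
    (hv : v.length ≤ 3) (hd' : ∀ d ∈ v, d < numDigits M) (hn : 2 ∣ n) (hm : 2 ∣ m)
    (h : n ≠ m ∨ Incomp w v) :
    (cyl M n w).2 + 2 ≤ (cyl M m v).1 ∨ (cyl M m v).2 + 2 ≤ (cyl M n w).1 := by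
  by_cases hnm : n = m
  · subst hnm
    have := incomp_apart (two_le_numDigits M) w v 4 (by omega) (by omega) hd hd'
      (by simpa using h)
    simp only [cyl, base] at *
    omega
  · have h1 := cyl_lt M (n := n) (by omega : w.length ≤ 4) hd
    have h2 := cyl_lt M (n := m) (by omega : v.length ≤ 4) hd'
    have hs := two_le_scale M
    rcases Nat.lt_or_gt_of_ne hnm with hlt | hlt
    · left
      have h3 := Nat.mul_le_mul_right (scale M) (by omega : n + 1 + 1 ≤ m)
      rw [add_mul (n + 1), one_mul] at h3
      omega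
    · right
      have h3 := Nat.mul_le_mul_right (scale M) (by omega : m + 1 + 1 ≤ n)
      rw [add_mul (m + 1), one_mul] at h3
      omega

theorem cyl_bd {n : ℕ} {w : List ℕ} (hn : n + 1 ≤ 16 * laneCap M) (hw : w.length ≤ 4)
    (hd : ∀ d ∈ w, d < numDigits M) : 5 * (cyl M n w).2 ≤ 4 * unit M := by
  have h1 := (cyl_lt M (n := n) hw hd).2.2
  have h2 := Nat.mul_le_mul_right (scale M) hn
  have h3 : 4 * unit M = 5 * (16 * laneCap M * scale M) := by unfold unit; ring
  omega

theorem dvd_restX (a : ℕ) : 2 ∣ restX M a := by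
  unfold restX laneCap; split <;> omega

theorem dvd_shift1 (r : ℕ) : 2 ∣ shift1 M r := ⟨numLabels M * (1 + r), by unfold shift1; ring⟩

theorem dvd_shift2 (w : List ℕ) : 2 ∣ shift2 M w :=
  ⟨numLabels M * (1 + wordIdx M w), by unfold shift2; ring⟩

theorem restX_inj {a b : ℕ} (ha : a < numLabels M) (hb : b < numLabels M)
    (h : restX M a = restX M b) : a = b := by
  have := numLabels_mul_le M (c := 1) (Nat.one_le_pow _ _ (by omega))
  unfold restX at h; split at h <;> split at h <;> omega

theorem restX_le {a : ℕ} (ha : a < numLabels M) :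
    restX M a + 2 ≤ 13 * laneCap M + 2 * numLabels M := by
  unfold restX; split <;> omega

theorem lane_inj {N a b c d : ℕ} (ha : a < N) (hb : b < N)
    (h : 2 * a + 2 * N * (1 + c) = 2 * b + 2 * N * (1 + d)) : a = b ∧ c = d := by
  have h' : a + N * c = b + N * d := by
    simp only [mul_add, mul_one, mul_assoc] at h; omega
  have hcd : c = d := by
    have h1 := congrArg (· / N) h'
    simpa [Nat.add_mul_div_left _ _ (by omega : 0 < N), Nat.div_eq_of_lt ha,
      Nat.div_eq_of_lt hb] using h1
  subst hcd
  exact ⟨by omega, rfl⟩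

theorem haltLabel_of_le {a : ℕ} (h : M.numStates ≤ a) : haltLabel M a = false := by
  simp [haltLabel, Nat.not_lt.mpr h]

theorem src_nonhalt {s : Src} (h : valid M s = true) : haltLabel M s.1 = false ∧
    s.1 < numLabels M ∧ s.2.1 < numDigits M ∧ s.2.2 < numDigits M := by
  rcases valid_cases M h with ⟨q, l, r, rfl, hq, hh, hl, hr, -⟩ |
    ⟨k, l, r, rfl, hk, hl, hr, -⟩ | ⟨q, l, r, rfl, hq, hl, hr, -⟩ <;>
    simp only [ready, collect, ret, numLabels, numDigits, sep, bot] at *
  · exact ⟨by simp [haltLabel, hh], by omega, by omega, by omega⟩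
  · exact ⟨haltLabel_of_le M (by omega), by omega, by omega, by omega⟩
  · exact ⟨haltLabel_of_le M (by omega), by omega, by omega, by omega⟩

theorem wordIdx_inj : ∀ {w v : List ℕ}, (∀ d ∈ w, d < numDigits M) → (∀ d ∈ v, d < numDigits M) →
    wordIdx M w = wordIdx M v → w = v := by
  intro w
  induction w with
  | nil =>
    intro v _ _ h
    cases v with
    | nil => rfl
    | cons b v => simp only [wordIdx, List.foldr_nil, List.foldr_cons] at h; omega
  | cons a w ih =>
    intro v hw hv h
    cases v with
    | nil => simp [wordIdx] at h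
    | cons b v =>
      simp only [wordIdx, List.foldr_cons] at h
      have ha := hw a List.mem_cons_self
      have hb := hv b List.mem_cons_self
      have hab : a = b := by
        have h1 := congrArg (· % (numDigits M + 1)) h
        simpa [Nat.add_mul_mod_self_left, Nat.mod_eq_of_lt (by omega : a + 1 < numDigits M + 1),
          Nat.mod_eq_of_lt (by omega : b + 1 < numDigits M + 1)] using h1
      subst hab
      have h2 : wordIdx M w = wordIdx M v := by
        have : (numDigits M + 1) * wordIdx M w = (numDigits M + 1) * wordIdx M v := by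
          simp only [wordIdx]; omega
        exact Nat.eq_of_mul_eq_mul_left (by omega) this
      rw [ih (fun x hx => hw x (List.mem_cons_of_mem _ hx))
        (fun x hx => hv x (List.mem_cons_of_mem _ hx)) h2]

theorem wordIdx_lt {w : List ℕ} (hd : ∀ d ∈ w, d < numDigits M) :
    wordIdx M w < (numDigits M + 1) ^ w.length := by
  induction w with
  | nil => simp [wordIdx]
  | cons a w ih =>
    have h := ih fun x hx => hd x (List.mem_cons_of_mem _ hx)
    have ha := hd a List.mem_cons_self
    have h2 := Nat.mul_le_mul_left (numDigits M + 1) (Nat.succ_le_of_lt h)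
    simp only [List.length_cons, pow_succ', wordIdx, List.foldr_cons, Nat.succ_eq_add_one,
      mul_add, mul_one] at *
    omega

theorem restY_shift1_bd {a r : ℕ} (ha : a < numLabels M) (hr : r < numDigits M) :
    2 * a + shift1 M r + 1 ≤ 3 * laneCap M := by
  have h2 : numDigits M + 1 ≤ (numDigits M + 2) ^ 3 :=
    le_trans (by omega) (Nat.le_self_pow (by norm_num) _)
  have h3 := numLabels_mul_le M (c := 1 + r) (by omega)
  have h4 := numLabels_mul_le M (c := 1) (by omega)
  simp only [shift1, mul_assoc]
  omega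

theorem restY_shift2_bd {a : ℕ} {w : List ℕ} (ha : a < numLabels M) (hw : w.length ≤ 3)
    (hd : ∀ d ∈ w, d < numDigits M) : 2 * a + shift2 M w + 1 ≤ 3 * laneCap M := by
  have h1 := wordIdx_lt M hd
  have h2 : (numDigits M + 1) ^ w.length ≤ (numDigits M + 1) ^ 3 :=
    Nat.pow_le_pow_right (by omega) hw
  have h3 : (numDigits M + 1) ^ 3 ≤ (numDigits M + 2) ^ 3 :=
    Nat.pow_le_pow_left (by omega) _
  have h4 := numLabels_mul_le M (c := 1 + wordIdx M w) (by omega)
  have h5 := numLabels_mul_le M (c := 1) (Nat.one_le_pow _ _ (by omega))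
  simp only [shift2, mul_assoc]
  omega

theorem nil_ok : ([] : List ℕ).length ≤ 3 ∧ ∀ d ∈ ([] : List ℕ), d < numDigits M := by simp

theorem single_ok {d : ℕ} (h : d < numDigits M) :
    [d].length ≤ 3 ∧ ∀ x ∈ [d], x < numDigits M := by simpa

theorem piece_good {n₁ n₂ n₃ : ℕ} {w₁ w₂ w₃ : List ℕ}
    (b₁ : n₁ + 1 ≤ 16 * laneCap M) (b₂ : n₂ + 1 ≤ 16 * laneCap M)
    (b₃ : n₃ + 1 ≤ 16 * laneCap M) (o₁ : w₁.length ≤ 3 ∧ ∀ d ∈ w₁, d < numDigits M)
    (o₂ : w₂.length ≤ 3 ∧ ∀ d ∈ w₂, d < numDigits M)
    (o₃ : w₃.length ≤ 3 ∧ ∀ d ∈ w₃, d < numDigits M) :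
    Piece.Good (unit M) (cyl M n₁ w₁, cyl M n₂ w₂, cyl M n₃ w₃) where
  sel_le := (cyl_lt M (by omega) o₁.2).1.le
  src_lt := (cyl_lt M (by omega) o₂.2).1
  dst_lt := (cyl_lt M (by omega) o₃.2).1
  sel_bd := cyl_bd M b₁ (by omega) o₁.2
  src_bd := cyl_bd M b₂ (by omega) o₂.2
  dst_bd := cyl_bd M b₃ (by omega) o₃.2

theorem mem_classes {c : ℕ × List ℕ} :
    c ∈ classes M ↔ ∃ s, valid M s = true ∧ ((target M s).1, (target M s).2.1) = c := by
  simp [classes, (dedupList_spec _).2, mem_ruleSources]

theorem stageA_good : Program.GoodStage (unit M) (stageA M) := by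
  refine ⟨?_, ?_⟩
  · intro p hp
    simp only [stageA, List.mem_map, List.mem_product, List.mem_range, Prod.exists] at hp
    obtain ⟨a, r, ⟨ha, hr⟩, rfl⟩ := hp
    have := restX_le M ha
    have := restY_shift1_bd M ha hr
    have := restY_shift1_bd M (a := numLabels M - 1) (by omega) hr
    exact piece_good M (by simp only [restY]; omega) (by dsimp only; omega) (by dsimp only; omega) (single_ok M hr)
      (nil_ok M) (nil_ok M)
  · refine List.pairwise_map.mpr
      ((List.nodup_range.product List.nodup_range).pairwise_of_forall_ne ?_)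
    rintro ⟨a, r⟩ h1 ⟨b, t⟩ h2 hne
    simp only [List.mem_product, List.mem_range] at h1 h2
    refine lanes_apart M (single_ok M h1.2).1 (single_ok M h1.2).2 (single_ok M h2.2).1
      (single_ok M h2.2).2 ⟨a, rfl⟩ ⟨b, rfl⟩ ?_
    by_cases hab : a = b
    · subst hab; right; simp [Incomp]; aesop
    · left; simp only [restY]; omega

theorem stageB_good : Program.GoodStage (unit M) (stageB M) := by
  refine ⟨?_, ?_⟩
  · intro p hp
    simp only [stageB, List.mem_map, mem_ruleSources] at hp
    obtain ⟨s, hs, rfl⟩ := hp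
    obtain ⟨hh, ha, hl, hr⟩ := src_nonhalt M hs
    have ht := target_ok M hs
    have := restY_shift1_bd M ha hr
    have := restY_shift2_bd M ht.dst_lt ht.lenL ht.digL
    exact piece_good M (by simp [restX, hh]; omega) (by simp only [restY]; omega)
      (by simp only [restY]; omega) (single_ok M hl) (single_ok M hr) ⟨ht.lenR, ht.digR⟩
  · refine List.pairwise_map.mpr ((ruleSources_nodup M).pairwise_of_forall_ne ?_)
    rintro ⟨a, l, r⟩ h1 ⟨b, l', t⟩ h2 hne
    obtain ⟨hh, ha, hl, hr⟩ := src_nonhalt M ((mem_ruleSources M).mp h1)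
    obtain ⟨hh', ha', hl', hr'⟩ := src_nonhalt M ((mem_ruleSources M).mp h2)
    refine lanes_apart M (single_ok M hl).1 (single_ok M hl).2 (single_ok M hl').1
      (single_ok M hl').2 ((dvd_restX M _).add (dvd_shift1 M _))
      ((dvd_restX M _).add (dvd_shift1 M _)) ?_
    by_cases heq : restX M a + shift1 M r = restX M b + shift1 M t
    · right
      simp only [restX, hh, hh', shift1] at heq
      obtain ⟨rfl, rfl⟩ := lane_inj ha ha' (by simpa using heq)
      simp [Incomp]; aesop
    · exact Or.inl heq

theorem stageC_good : Program.GoodStage (unit M) (stageC M) := by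
  refine ⟨?_, ?_⟩
  · intro p hp
    simp only [stageC, List.mem_map, mem_ruleSources] at hp
    obtain ⟨s, hs, rfl⟩ := hp
    obtain ⟨hh, ha, hl, hr⟩ := src_nonhalt M hs
    have ht := target_ok M hs
    have := restY_shift1_bd M ha hr
    have := restY_shift2_bd M ht.dst_lt ht.lenL ht.digL
    have := restX_le M ht.dst_lt
    have := numLabels_mul_le M (c := 1) (Nat.one_le_pow _ _ (by omega))
    exact piece_good M (by simp only [restY]; omega) (by simp [restX, hh]; omega)
      (by omega) ⟨ht.lenR, ht.digR⟩ (single_ok M hl) ⟨ht.lenL, ht.digL⟩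
  · refine List.pairwise_map.mpr ((ruleSources_nodup M).pairwise_of_forall_ne ?_)
    intro s h1 s₂ h2 hne
    rw [mem_ruleSources] at h1 h2
    have t1 := target_ok M h1
    have t2 := target_ok M h2
    refine lanes_apart M t1.lenR t1.digR t2.lenR t2.digR
      ((dvd_mul_right 2 _).add (dvd_shift2 M _)) ((dvd_mul_right 2 _).add (dvd_shift2 M _)) ?_
    by_cases heq : restY (target M s).1 + shift2 M (target M s).2.1
        = restY (target M s₂).1 + shift2 M (target M s₂).2.1
    · right
      obtain ⟨hd, hi⟩ := lane_inj t1.dst_lt t2.dst_lt heq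
      exact ((target_injective M h1 h2 hd).2 (wordIdx_inj M t1.digL t2.digL hi)).resolve_left hne
    · exact Or.inl heq

theorem stageD_good : Program.GoodStage (unit M) (stageD M) := by
  refine ⟨?_, ?_⟩
  · intro p hp
    simp only [stageD, List.mem_map, mem_classes] at hp
    obtain ⟨c, ⟨s, hs, rfl⟩, rfl⟩ := hp
    have ht := target_ok M hs
    have := restY_shift2_bd M ht.dst_lt ht.lenL ht.digL
    have := restX_le M ht.dst_lt
    have := numLabels_mul_le M (c := 1) (Nat.one_le_pow _ _ (by omega))
    exact piece_good M (by simp only; omega) (by simp only [restY]; omega)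
      (by simp only [restY]; omega) ⟨ht.lenL, ht.digL⟩ (nil_ok M) (nil_ok M)
  · refine List.pairwise_map.mpr ((dedupList_spec _).1.pairwise_of_forall_ne ?_)
    intro c h1 c₂ h2 hne
    obtain ⟨s, hs, rfl⟩ := (mem_classes M).mp h1
    obtain ⟨s₂, hs₂, rfl⟩ := (mem_classes M).mp h2
    have t1 := target_ok M hs
    have t2 := target_ok M hs₂
    refine lanes_apart M t1.lenL t1.digL t2.lenL t2.digL (dvd_restX M _) (dvd_restX M _) ?_
    by_cases hd : (target M s).1 = (target M s₂).1
    · right
      refine (target_injective M hs hs₂ hd).1.resolve_left fun he => hne ?_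
      simp [hd, he]
    · exact Or.inl fun h => hd (restX_inj M t1.dst_lt t2.dst_lt h)

theorem twenty_le_unit : 20 ≤ unit M := by
  have := two_le_scale M
  have h : 1 ≤ laneCap M := by unfold laneCap; omega
  unfold unit
  calc 20 = 20 * 1 * 1 := rfl
    _ ≤ 20 * laneCap M * scale M := Nat.mul_le_mul (Nat.mul_le_mul_left _ h) (by omega)

theorem program_good : (program M).Good :=
  ⟨twenty_le_unit M, stageA_good M, stageB_good M, stageC_good M, stageD_good M⟩

end Vale.Agent.P113.Disc
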