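import Vale.Agent.P113.Disc.Compile

/-!
P113: assembling the discrete side with the (analytic) interface, which is passed here as
arguments.
-/

namespace Vale.Agent.P113.Disc

open Set
open scoped ContDiff

/-- The box `(3/5, 4/5) × (-1, 1) × (-1, 1)`. -/
def boxLo : Fin 3 → ℚ := ![3 / 5, -1, -1]

/-- See `boxLo`. -/
def boxHi : Fin 3 → ℚ := ![4 / 5, 1, 1]

variable (M : Machine)

/-- The discrete part of the halting equivalence, for a curve obeying the interface. -/
theorem hit_iff (w : List ℕ) (X : ℝ → Fin 3 → ℝ)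
    (load : X (1 / 2) = planePt (startData M w).pt.1 (startData M w).pt.2 ∧
      ∀ t ∈ Icc (0 : ℝ) (1 / 2), X t 0 ∈ uIcc 0 (startData M w).pt.1)
    (step : ∀ (n : ℕ) (x y x₁ x' y' : ℝ), X ((n : ℝ) + 1 / 2) = planePt x y →
      (program M).StepTo x y x₁ x' y' →
      X ((n : ℝ) + 3 / 2) = planePt x' y' ∧
        ∀ t ∈ Icc ((n : ℝ) + 1 / 2) ((n : ℝ) + 3 / 2), X t 0 ∈ uIcc x x₁ ∪ uIcc x₁ x') :
    (∃ t, 0 ≤ t ∧ InBox boxLo boxHi (X t)) ↔ M.Halts w := by
  set z : ℕ → Cfg2 := fun n => (next M)^[n] (initCfg M w) with hzdef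
  have hz1 : ∀ n, z (n + 1) = next M (z n) := fun n => Function.iterate_succ_apply' _ _ _
  have key : ∀ n, (∀ m < n, Live M (z m)) → DigOK M (z n) ∧
      X ((n : ℝ) + 1 / 2) = planePt (posX M (z n)) (posY M (z n)) := by
    intro n
    induction n with
    | zero =>
      intro _
      refine ⟨digOK_init M w, ?_⟩
      have h := load.1
      rw [start_pt] at h
      simpa [hzdef] using h
    | succ n ih =>
      intro h
      obtain ⟨hd, hX⟩ := ih fun m hm => h m (by omega)
      have hl := h n (by omega)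
      refine ⟨hz1 n ▸ next_digOK M hd hl, ?_⟩
      have h' := (step n _ _ _ _ _ hX (stepTo M hd hl)).1
      rw [hz1 n]
      convert h' using 2
      push_cast; ring
  constructor
  · rintro ⟨t, ht, k, hk⟩
    by_contra hh
    have hlive : ∀ n, Live M (z n) := sim_runs M hh
    have hdig := fun n => (key n fun m _ => hlive m).1
    have hmem : X t 0 ∈ Icc (0 : ℝ) (3 / 10) := by
      have h0 : (posX M (z 0)) ∈ Icc (0 : ℝ) (3 / 10) := (posX_live M (hdig 0) (hlive 0)).1
      by_cases hhalf : t ≤ 1 / 2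
      · have h := load.2 t ⟨ht, hhalf⟩
        rw [start_pt] at h
        exact uIcc_subset_Icc ⟨le_rfl, by norm_num⟩ (by simpa [hzdef] using h0) h
      · set n := ⌊t - 1 / 2⌋₊ with hn
        have ht' : 0 ≤ t - 1 / 2 := by linarith
        have hl := Nat.floor_le ht'
        have hu := Nat.lt_floor_add_one (t - 1 / 2)
        rw [← hn] at hl hu
        have h := (step n _ _ _ _ _ (key n fun m _ => hlive m).2
          (stepTo M (hdig n) (hlive n))).2 t ⟨by linarith, by linarith⟩
        obtain ⟨p1, p2⟩ := posX_live M (hdig n) (hlive n)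
        have p3 : posX M (next M (z n)) ∈ Icc (0 : ℝ) (3 / 10) :=
          hz1 n ▸ (posX_live M (hdig (n + 1)) (hlive (n + 1))).1
        rcases h with h | h
        · exact uIcc_subset_Icc p1 p2 h
        · exact uIcc_subset_Icc p2 p3 h
    obtain ⟨a1, a2⟩ := hk 0
    norm_num [boxLo, boxHi] at a1 a2
    obtain ⟨b1, b2⟩ := hmem
    have hk0 : 0 < k 0 := by exact_mod_cast (by linarith : (0 : ℝ) < (k 0 : ℝ))
    have hk1 : k 0 < 1 := by exact_mod_cast (by linarith : (k 0 : ℝ) < 1)
    omega
  · intro h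
    obtain ⟨n, hl, hh⟩ := sim_halts M h
    obtain ⟨hd, hX⟩ := key n hl
    obtain ⟨g1, g2⟩ := posX_halt M hd hh
    obtain ⟨y0, y1⟩ := lanePt_bounds M (n := restY (z n).1) hd.digR
    have hy : 0 ≤ posY M (z n) ∧ posY M (z n) < 1 := by
      have hW : (0 : ℝ) < laneCap M := by
        exact_mod_cast (by unfold laneCap; omega : 0 < laneCap M)
      have hb : restY (z n).1 + 2 ≤ 20 * laneCap M := by
        have := numLabels_mul_le M (c := 1) (Nat.one_le_pow _ _ (by omega))
        have := hd.lab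
        simp only [restY]; omega
      have hb' : (restY (z n).1 : ℝ) + 2 ≤ 20 * laneCap M := by exact_mod_cast hb
      refine ⟨le_trans (by positivity) y0, lt_of_le_of_lt y1 ?_⟩
      rw [div_lt_one (by positivity)]; linarith
    refine ⟨(n : ℝ) + 1 / 2, by positivity, 0, fun i => ?_⟩
    rw [hX]
    fin_cases i <;> norm_num [boxLo, boxHi, planePt] <;> constructor <;>
      linarith [g1, g2, hy.1, hy.2]

end Vale.Agent.P113.Disc
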