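import Vale.Agent.P113.Disc.Code

/-!
P113: the injective two-stack system of a machine.

Digits: letters `0,…,A-1` (`0` is the blank), `A` (separator during a sweep), `A+1` (bottom of
the right part of the tape) and one digit per history key.  Labels: `ready q`, `collect k`,
`ret q`.  A rule is `((src, l, r), (dst, wL, wR))`: it pops `l` from the left and `r` from the
right stack (with implicit blanks) and pushes the words `wL` and `wR`.
-/

namespace Vale.Agent.P113.Disc

open Machine

variable (M : Machine)

def sep : ℕ := M.numSymbols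
def bot : ℕ := M.numSymbols + 1
def numKeys : ℕ := M.numStates * (M.numSymbols + 1)
def key (q r' : ℕ) : ℕ := q * (M.numSymbols + 1) + r'
def keyState (k : ℕ) : ℕ := k / (M.numSymbols + 1)
def keyTop (k : ℕ) : ℕ := k % (M.numSymbols + 1)
/-- The letter under the head for the top index `r'`. -/
def keyLetter (k : ℕ) : ℕ := if keyTop M k = M.numSymbols then 0 else keyTop M k
def hist (k : ℕ) : ℕ := M.numSymbols + 2 + k
def numDigits : ℕ := M.numSymbols + 2 + numKeys M
def numLabels : ℕ := 2 * M.numStates + numKeys M

def ready (q : ℕ) : ℕ := q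
def collect (k : ℕ) : ℕ := M.numStates + k
def ret (q : ℕ) : ℕ := M.numStates + numKeys M + q

/-- The label is `ready q` with `q` halting. -/
def haltLabel (a : ℕ) : Bool := decide (a < M.numStates) && M.isHalting a

/-- The top index of a digit of the right stack: a letter, or `A` for the bottom. -/
def topIndex (r : ℕ) : ℕ := if r < M.numSymbols then r else M.numSymbols

abbrev Src : Type := ℕ × ℕ × ℕ
abbrev Tgt : Type := ℕ × List ℕ × List ℕ

/-- When a rule exists. -/
def valid (s : Src) : Bool :=
  if s.1 < M.numStates then
    !M.isHalting s.1 && decide (s.2.1 < M.numSymbols) &&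
      (decide (s.2.2 < M.numSymbols) || decide (s.2.2 = bot M))
  else if s.1 < M.numStates + numKeys M then
    decide (s.2.1 ≤ sep M) && (decide (s.2.2 < M.numSymbols) || decide (s.2.2 = bot M))
  else
    decide (s.1 < numLabels M) && decide (s.2.1 ≤ sep M) && decide (s.2.2 < M.numSymbols)

/-- The words pushed by a step of the machine. -/
def readyTgt (q l r : ℕ) : Tgt :=
  let k := key M q (topIndex M r)
  let a := keyLetter M k
  let s := M.newSymbol q a
  let d := (M.entry q a).2.2
  let rest : List ℕ := if r < M.numSymbols then [] else [bot M]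
  if d = 0 then (collect M k, [sep M], [l, s] ++ rest)
  else if d = 1 then (collect M k, [sep M, s, l], rest)
  else (collect M k, [sep M, l], [s] ++ rest)

/-- One move of the collecting sweep, or its end. -/
def collectTgt (k l r : ℕ) : Tgt :=
  let q := M.newState (keyState M k) (keyLetter M k)
  if r < M.numSymbols then (collect M k, [r, l], [])
  else if l < M.numSymbols then (ret M q, [], [l, bot M, hist M k])
  else (ready q, [], [bot M, hist M k])

/-- One move of the returning sweep, or its end. -/
def retTgt (q l r : ℕ) : Tgt :=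
  if l < M.numSymbols then (ret M q, [], [l, r]) else (ready q, [], [r])

def target (s : Src) : Tgt :=
  if s.1 < M.numStates then readyTgt M s.1 s.2.1 s.2.2
  else if s.1 < M.numStates + numKeys M then collectTgt M (s.1 - M.numStates) s.2.1 s.2.2
  else retTgt M (s.1 - (M.numStates + numKeys M)) s.2.1 s.2.2

/-- All candidate sources. -/
def sources : List Src :=
  List.range (numLabels M) ×ˢ (List.range (numDigits M) ×ˢ List.range (numDigits M))

/-- The sources of the rules. -/
def ruleSources : List Src := (sources M).filter (valid M)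

/-! ### Elementary facts -/

theorem numSymbols_pos : 0 < M.numSymbols := Nat.succ_pos _

theorem numStates_pos : 0 < M.numStates := Nat.succ_pos _

theorem numKeys_pos : 0 < numKeys M := Nat.mul_pos (numStates_pos M) (Nat.succ_pos _)

theorem two_le_numDigits : 2 ≤ numDigits M := by unfold numDigits; omega

theorem newState_lt (q a : ℕ) : M.newState q a < M.numStates :=
  Nat.mod_lt _ (numStates_pos M)

theorem newSymbol_lt (q a : ℕ) : M.newSymbol q a < M.numSymbols :=
  Nat.mod_lt _ (numSymbols_pos M)

theorem topIndex_le (r : ℕ) : topIndex M r ≤ M.numSymbols := by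
  unfold topIndex; split <;> omega

theorem key_lt {q r' : ℕ} (hq : q < M.numStates) (hr : r' ≤ M.numSymbols) :
    key M q r' < numKeys M := by
  unfold key numKeys
  calc q * (M.numSymbols + 1) + r' < q * (M.numSymbols + 1) + (M.numSymbols + 1) := by omega
    _ = (q + 1) * (M.numSymbols + 1) := by ring
    _ ≤ M.numStates * (M.numSymbols + 1) := Nat.mul_le_mul_right _ hq

theorem keyState_key {q r' : ℕ} (hr : r' ≤ M.numSymbols) : keyState M (key M q r') = q := by
  unfold keyState key
  rw [Nat.add_comm, Nat.add_mul_div_right _ _ (Nat.succ_pos _), Nat.div_eq_of_lt (by omega)]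
  omega

theorem keyTop_key {q r' : ℕ} (hr : r' ≤ M.numSymbols) : keyTop M (key M q r') = r' := by
  unfold keyTop key
  rw [Nat.add_comm, Nat.add_mul_mod_self_right, Nat.mod_eq_of_lt (by omega)]

theorem key_inj {q r' q₂ r₂ : ℕ} (hr : r' ≤ M.numSymbols) (hr₂ : r₂ ≤ M.numSymbols)
    (h : key M q r' = key M q₂ r₂) : q = q₂ ∧ r' = r₂ :=
  ⟨by rw [← keyState_key M (q := q) hr, h, keyState_key M hr₂],
   by rw [← keyTop_key M (q := q) hr, h, keyTop_key M hr₂]⟩

/-- The shape of a valid source. -/
theorem valid_cases {s : Src} (h : valid M s = true) :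
    (∃ q l r, s = (ready q, l, r) ∧ q < M.numStates ∧ M.isHalting q = false ∧ l < M.numSymbols ∧
      (r < M.numSymbols ∨ r = bot M) ∧ target M s = readyTgt M q l r) ∨
    (∃ k l r, s = (collect M k, l, r) ∧ k < numKeys M ∧ l ≤ sep M ∧
      (r < M.numSymbols ∨ r = bot M) ∧ target M s = collectTgt M k l r) ∨
    (∃ q l r, s = (ret M q, l, r) ∧ q < M.numStates ∧ l ≤ sep M ∧ r < M.numSymbols ∧
      target M s = retTgt M q l r) := by
  obtain ⟨a, l, r⟩ := s
  simp only [valid] at h
  by_cases h1 : a < M.numStates
  · left
    simp only [h1, if_true, Bool.and_eq_true, Bool.not_eq_true', decide_eq_true_eq,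
      Bool.or_eq_true] at h
    exact ⟨a, l, r, rfl, h1, h.1.1, h.1.2, h.2, by simp [target, h1]⟩
  · right
    by_cases h2 : a < M.numStates + numKeys M
    · left
      simp only [h1, if_false, h2, if_true, Bool.and_eq_true, decide_eq_true_eq,
        Bool.or_eq_true] at h
      exact ⟨a - M.numStates, l, r, by simp [collect]; omega, by omega, h.1, h.2,
        by simp [target, h1, h2]⟩
    · right
      simp only [h1, if_false, h2, Bool.and_eq_true, decide_eq_true_eq] at h
      refine ⟨a - (M.numStates + numKeys M), l, r, by simp [ret]; omega, ?_, h.1.2, h.2,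
        by simp [target, h1, h2]⟩
      have := h.1.1; unfold numLabels at this; omega

theorem mem_ruleSources {s : Src} : s ∈ ruleSources M ↔ valid M s = true := by
  constructor
  · intro h; exact (List.mem_filter.mp h).2
  · intro h
    refine List.mem_filter.mpr ⟨?_, h⟩
    rcases valid_cases M h with ⟨q, l, r, rfl, hq, -, hl, hr, -⟩ |
      ⟨k, l, r, rfl, hk, hl, hr, -⟩ | ⟨q, l, r, rfl, hq, hl, hr, -⟩ <;>
      simp only [sources, List.mem_product, List.mem_range, ready, collect, ret, numLabels,
        numDigits, bot, sep] at * <;>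
      refine ⟨by omega, by omega, by omega⟩

theorem ruleSources_nodup : (ruleSources M).Nodup :=
  (List.nodup_range.product (List.nodup_range.product List.nodup_range)).filter _

/-! ### Targets -/

structure TgtOK (t : Tgt) : Prop where
  dst_lt : t.1 < numLabels M
  lenL : t.2.1.length ≤ 3
  lenR : t.2.2.length ≤ 3
  digL : ∀ d ∈ t.2.1, d < numDigits M
  digR : ∀ d ∈ t.2.2, d < numDigits M

theorem target_ok {s : Src} (h : valid M s = true) : TgtOK M (target M s) := by
  have hD : numDigits M = M.numSymbols + 2 + numKeys M := rfl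
  have hL : numLabels M = 2 * M.numStates + numKeys M := rfl
  rcases valid_cases M h with ⟨q, l, r, rfl, hq, -, hl, hr, he⟩ |
    ⟨k, l, r, rfl, hk, hl, hr, he⟩ | ⟨q, l, r, rfl, hq, hl, hr, he⟩ <;> rw [he]
  · have hk := key_lt M hq (topIndex_le M r)
    have hs := newSymbol_lt M q (keyLetter M (key M q (topIndex M r)))
    simp only [readyTgt, collect, sep, bot] at *
    split <;> split <;> (try split) <;>
      (constructor <;> simp <;> omega)
  · have hs := newState_lt M (keyState M k) (keyLetter M k)
    simp only [collectTgt, collect, ready, ret, hist, sep, bot] at *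
    split <;> (try split) <;>
      (constructor <;> simp <;> omega)
  · simp only [retTgt, ready, ret, sep] at *
    split <;>
      (constructor <;> simp <;> omega)

theorem readyTgt_fst (q l r : ℕ) :
    (readyTgt M q l r).1 = collect M (key M q (topIndex M r)) := by
  simp only [readyTgt]; split <;> (try split) <;> rfl

theorem readyTgt_left (q l r : ℕ) : ∃ p, (readyTgt M q l r).2.1 = sep M :: p := by
  simp only [readyTgt]; split <;> (try split) <;> exact ⟨_, rfl⟩

theorem readyTgt_pair (q : ℕ) {l l₂ r : ℕ} :
    ((readyTgt M q l r).2.1 = (readyTgt M q l₂ r).2.1 ∨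
      Incomp (readyTgt M q l r).2.1 (readyTgt M q l₂ r).2.1) ∧
    ((readyTgt M q l r).2.1 = (readyTgt M q l₂ r).2.1 →
      l = l₂ ∨ Incomp (readyTgt M q l r).2.2 (readyTgt M q l₂ r).2.2) := by
  simp only [readyTgt]
  split <;> (try split) <;> simp [Incomp] <;> tauto

/-- The key property: the system is injective, in the form used by the layout. -/
theorem target_injective {s s₂ : Src} (h : valid M s = true) (h₂ : valid M s₂ = true)
    (hd : (target M s).1 = (target M s₂).1) :
    ((target M s).2.1 = (target M s₂).2.1 ∨ Incomp (target M s).2.1 (target M s₂).2.1) ∧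
    ((target M s).2.1 = (target M s₂).2.1 →
      s = s₂ ∨ Incomp (target M s).2.2 (target M s₂).2.2) := by
  rcases valid_cases M h with ⟨q, l, r, rfl, hq, -, hl, hr, he⟩ |
    ⟨k, l, r, rfl, hk, hl, hr, he⟩ | ⟨q, l, r, rfl, hq, hl, hr, he⟩ <;>
  rcases valid_cases M h₂ with ⟨q₂, l₂, r₂, rfl, hq₂, -, hl₂, hr₂, he₂⟩ |
    ⟨k₂, l₂, r₂, rfl, hk₂, hl₂, hr₂, he₂⟩ | ⟨q₂, l₂, r₂, rfl, hq₂, hl₂, hr₂, he₂⟩ <;>
  rw [he, he₂] at hd ⊢
  · -- ready, ready
    rw [readyTgt_fst, readyTgt_fst] at hd
    simp only [collect, Nat.add_left_cancel_iff] at hd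
    obtain ⟨rfl, htop⟩ := key_inj M (topIndex_le M r) (topIndex_le M r₂) hd
    have hrr : r = r₂ := by
      simp only [topIndex, bot] at htop hr hr₂
      split at htop <;> split at htop <;> omega
    subst hrr
    obtain ⟨h1, h2⟩ := readyTgt_pair M q (l := l) (l₂ := l₂) (r := r)
    exact ⟨h1, fun h => (h2 h).imp (fun e => by rw [e]) id⟩
  · -- ready, collect
    rw [readyTgt_fst] at hd
    obtain ⟨p, hp⟩ := readyTgt_left M q l r
    have hk := key_lt M hq (topIndex_le M r)
    have := newState_lt M (keyState M k₂) (keyLetter M k₂)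
    rw [hp]
    simp only [collectTgt, collect, ready, ret, sep] at *
    split at hd
    · simp [*, Incomp]; omega
    · split at hd <;> simp at hd <;> omega
  · -- ready, ret
    rw [readyTgt_fst] at hd
    have hk := key_lt M hq (topIndex_le M r)
    simp only [retTgt, collect, ready, ret] at *
    split at hd <;> simp at hd <;> omega
  · -- collect, ready
    rw [readyTgt_fst] at hd
    obtain ⟨p, hp⟩ := readyTgt_left M q₂ l₂ r₂
    have hk := key_lt M hq₂ (topIndex_le M r₂)
    have := newState_lt M (keyState M k) (keyLetter M k)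
    rw [hp]
    simp only [collectTgt, collect, ready, ret, sep] at *
    split at hd
    · simp [*, Incomp]; omega
    · split at hd <;> simp at hd <;> omega
  · -- collect, collect
    have := newState_lt M (keyState M k) (keyLetter M k)
    have := newState_lt M (keyState M k₂) (keyLetter M k₂)
    simp only [collectTgt, collect, ready, ret, sep, bot, hist] at *
    by_cases h1 : r < M.numSymbols <;> by_cases h2 : r₂ < M.numSymbols <;>
      by_cases h3 : l < M.numSymbols <;> by_cases h4 : l₂ < M.numSymbols <;>
      simp [*, Incomp] at hd ⊢ <;> grind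
  · -- collect, ret
    have := newState_lt M (keyState M k) (keyLetter M k)
    simp only [collectTgt, retTgt, collect, ready, ret, sep, bot, hist] at *
    by_cases h1 : r < M.numSymbols <;> by_cases h3 : l < M.numSymbols <;>
      by_cases h4 : l₂ < M.numSymbols <;> simp [*, Incomp] at hd ⊢ <;> grind
  · -- ret, ready
    rw [readyTgt_fst] at hd
    have hk := key_lt M hq₂ (topIndex_le M r₂)
    simp only [retTgt, collect, ready, ret] at *
    split at hd <;> simp at hd <;> omega
  · -- ret, collect
    have := newState_lt M (keyState M k₂) (keyLetter M k₂)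
    simp only [collectTgt, retTgt, collect, ready, ret, sep, bot, hist] at *
    by_cases h2 : r₂ < M.numSymbols <;> by_cases h3 : l < M.numSymbols <;>
      by_cases h4 : l₂ < M.numSymbols <;> simp [*, Incomp] at hd ⊢ <;> grind
  · -- ret, ret
    simp only [retTgt, ready, ret, sep] at *
    by_cases h3 : l < M.numSymbols <;> by_cases h4 : l₂ < M.numSymbols <;>
      simp [*, Incomp] at hd ⊢ <;> grind

end Vale.Agent.P113.Disc
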